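-- RD-BASE 4cd90d4b68a6e6e5c141fd89b6b37b1e36da5eba
import Vale.Agent.P028.RD.H530.SF
attribute [-instance] ProperSMul.toContinuousSMul IsTopologicalTorsor.toContinuousSMul IdemSemiring.toCanonicallyOrderedAdd IdemSemiring.toMulLeftMono IdemSemiring.toMulRightMono AddQuantale.instAddLeftMono AddQuantale.instAddRightMono Quantale.instMulLeftMono Quantale.instMulRightMono FiniteDimensional.rclike_to_real IsScalarTower.complexToReal FiniteDimensional.complexToReal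

/-!
# The pairs with the same future: the part on words
-/

namespace Vale.P028.SK

open Finset CF RN H669 RK

/-! ### The kernel at a position -/

open Classical in
/-- the gains of the pairs with the same future which are not exceptional -/
noncomputable def kG (g : Cfg) (δ : ℕ → ℕ → ℝ) (R : ℕ → ℕ → Prop) (i q r : ℕ) : ℝ :=
  if R i q ∨ R i r then 0 else kS g δ i q r

/-- the stages at a position -/
noncomputable def stp (g : Cfg) (a : ℕ) : Finset ℕ := (Icc 1 (nst g)).filter (fun i => N g - z g i = a)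

/-- the kernel at a position -/
noncomputable def kP (g : Cfg) (δ : ℕ → ℕ → ℝ) (R : ℕ → ℕ → Prop) (S : Finset ℕ) (b : ℕ × ℕ)
    (a : ℕ) (ω w : Fin (N g) → Fin (Eb g + 1)) : ℝ :=
  ∑ i ∈ stp g a, KT g S S (kG g δ R i) b ω w

variable {g : Cfg}

theorem kG_nonneg {δ : ℕ → ℕ → ℝ} (hδ : Om δ) (R : ℕ → ℕ → Prop) (i q r : ℕ) :
    0 ≤ kG g δ R i q r := by
  unfold kG
  split_ifs
  · exact le_rfl
  · exact kS_nonneg hδ _ _ _

theorem kG_ne {δ : ℕ → ℕ → ℝ} {R : ℕ → ℕ → Prop} {i q r : ℕ} (h : kG g δ R i q r ≠ 0) :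
    ¬ R i q ∧ ¬ R i r ∧ kG g δ R i q r = kS g δ i q r ∧ r ≠ q ∧ ∃ n ∈ Sh g q r, TAs g i q r n := by
  unfold kG at h ⊢
  by_cases h1 : R i q ∨ R i r
  · rw [if_pos h1] at h
    exact absurd rfl h
  · rw [if_neg h1] at h
    obtain ⟨h2, h3⟩ := not_or.1 h1
    exact ⟨h2, h3, if_neg h1, kS_ne h⟩

theorem KT_nonneg {S : Finset ℕ} {T : ℕ → ℕ → ℝ} (hT : ∀ q r, 0 ≤ T q r) (b : ℕ × ℕ)
    (ω w : Fin (N g) → Fin (Eb g + 1)) : 0 ≤ KT g S S T b ω w := by
  unfold KT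
  split_ifs
  · exact hT _ _
  · exact le_rfl

theorem KT_ne {S : Finset ℕ} {T : ℕ → ℕ → ℝ} {b : ℕ × ℕ} {ω w : Fin (N g) → Fin (Eb g + 1)}
    (h : KT g S S T b ω w ≠ 0) : nu g b ω ∈ S ∧ nu g b w ∈ S ∧ T (nu g b ω) (nu g b w) ≠ 0 ∧
      KT g S S T b ω w = T (nu g b ω) (nu g b w) := by
  unfold KT at h ⊢
  split_ifs at h ⊢ with h1
  · exact ⟨h1.1, h1.2, h, rfl⟩
  · exact absurd rfl h

theorem kP_nonneg {δ : ℕ → ℕ → ℝ} (hδ : Om δ) (R : ℕ → ℕ → Prop) (S : Finset ℕ) (b : ℕ × ℕ)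
    (a : ℕ) (ω w : Fin (N g) → Fin (Eb g + 1)) : 0 ≤ kP g δ R S b a ω w :=
  sum_nonneg fun _ _ => KT_nonneg (fun _ _ => kG_nonneg hδ _ _ _ _) _ _ _

/-- the data of a non-zero kernel -/
structure KPd (g : Cfg) (δ : ℕ → ℕ → ℝ) (R : ℕ → ℕ → Prop) (S : Finset ℕ) (b : ℕ × ℕ)
    (a : ℕ) (ω w : Fin (N g) → Fin (Eb g + 1)) (i : ℕ) (n : ℤ) : Prop where
  one_le : 1 ≤ i
  le : i ≤ nst g
  pos : N g - z g i = a
  lt : z g i < N g
  mq : nu g b ω ∈ S
  mr : nu g b w ∈ S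
  nq : ¬ R i (nu g b ω)
  nr : ¬ R i (nu g b w)
  sh : n ∈ Sh g (nu g b ω) (nu g b w)
  ta : TAs g i (nu g b ω) (nu g b w) n
  eq : kP g δ R S b a ω w = kS g δ i (nu g b ω) (nu g b w)

theorem kP_data (hJ : JsOK g.K g.Js) (hX : g.Js ≤ g.X) (hV : g.V ⊆ Icc 1 (N g))
    (hρ : g.K.P.ρ0 ≤ 1 / 8) {δ : ℕ → ℕ → ℝ} {R : ℕ → ℕ → Prop} {S : Finset ℕ}
    (hS : S ⊆ g.V) {b : ℕ × ℕ} {a : ℕ} {ω w : Fin (N g) → Fin (Eb g + 1)}
    (h : kP g δ R S b a ω w ≠ 0) : ∃ i n, KPd g δ R S b a ω w i n := by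
  obtain ⟨i, hi, hne⟩ := exists_ne_zero_of_sum_ne_zero h
  obtain ⟨h1, h2⟩ := mem_filter.1 hi
  obtain ⟨h3, h4⟩ := mem_Icc.1 h1
  obtain ⟨h5, h6, h7, h8⟩ := KT_ne hne
  obtain ⟨h9, h10, h11, h12, n, hn, hT⟩ := kG_ne h7
  refine ⟨i, n, h3, h4, h2, TAs_pos hJ hX hV (hS h5) (hS h6) h12 hT, h5, h6, h9, h10, hn, hT, ?_⟩
  unfold kP
  rw [sum_eq_single_of_mem i hi fun i' hi' hne' => ?_, h8, h11]
  by_contra hcon
  obtain ⟨-, -, h7', -⟩ := KT_ne hcon
  obtain ⟨-, -, -, -, n', hn', hT'⟩ := kG_ne h7'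
  have h3' := (mem_Icc.1 (mem_filter.1 hi').1).1
  rcases lt_or_gt_of_ne hne' with h | h
  · exact TAs_unique hJ hX hV hρ h3' h (hS h5) (hS h6) hn' hn hT' hT
  · exact TAs_unique hJ hX hV hρ h3 h (hS h5) (hS h6) hn hn' hT hT'

/-- exchange of the two members -/
theorem KPd.swap (hJ : JsOK g.K g.Js) (hX : g.Js ≤ g.X) (hV : g.V ⊆ Icc 1 (N g))
    {δ : ℕ → ℕ → ℝ} {R : ℕ → ℕ → Prop} {S : Finset ℕ}
    (hS : S ⊆ g.V) {b : ℕ × ℕ} {a : ℕ} {ω w : Fin (N g) → Fin (Eb g + 1)} {i : ℕ} {n : ℤ}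
    (h : KPd g δ R S b a ω w i n) :
    -n ∈ Sh g (nu g b w) (nu g b ω) ∧ TAs g i (nu g b w) (nu g b ω) (-n) :=
  ⟨Sh_neg h.sh, h.ta.swap hJ hX hV (hS h.mq) (hS h.mr)⟩

/-- the hypothesis (H) for the moduli: `R` is the exception -/
def HypH (g : Cfg) (R : ℕ → ℕ → Prop) : Prop :=
  ∀ i i' q r r' n n', 1 ≤ i → i < i' → q ∈ g.V → r ∈ g.V → r' ∈ g.V → n ∈ Sh g q r →
    n' ∈ Sh g q r' → TAs g i q r n → TAs g i' q r' n' → Nwf g i' r' →
    (∀ t, i < t → t ≤ i' → ¬ Nwf g t q) → (∀ t, i < t → t ≤ i' → ¬ Nwf g t r) ∨ R i' q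

/-- (H) in terms of positions -/
theorem hH_core (hJ : JsOK g.K g.Js) (hX : g.Js ≤ g.X) {R : ℕ → ℕ → Prop} (hR : HypH g R)
    {i i' q r r' : ℕ} {n n' : ℤ} (hi : 1 ≤ i) (hi' : i' ≤ nst g) (hii : i < i')
    (hzi : z g i < N g) (hq : q ∈ g.V) (hr : r ∈ g.V) (hr' : r' ∈ g.V) (hn : n ∈ Sh g q r)
    (hn' : n' ∈ Sh g q r') (h : TAs g i q r n) (h' : TAs g i' q r' n') (hRq : ¬ R i' q)
    (hc : ∀ s ∈ NwP g q, N g - z g i < s → N g - z g i' < s) :
    ∀ s ∈ NwP g r, N g - z g i < s → N g - z g i' < s := by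
  have hzi' : z g i' < N g := lt_of_le_of_lt (z_anti g hii.le) hzi
  have hch : ∀ t, i < t → t ≤ i' → ¬ Nwf g t q := by
    intro t ht ht' hct
    have h1 : N g - z g t ∈ NwP g q := mem_NwP.2 ⟨t, by omega, by omega, hct, rfl⟩
    have h2 := z_strict hJ hX hi ht (by omega)
    have h3 := hc _ h1 (by omega)
    have h4 := z_anti g ht'
    omega
  have hnew : Nwf g i' r' := by
    rcases TAs_new (by omega) h' with h1 | h1
    · exact absurd h1 (hch i' hii le_rfl)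
    · exact h1
  rcases hR i i' q r r' n n' hi hii hq hr hr' hn hn' h h' hnew hch with h1 | h1
  · intro s hs his
    obtain ⟨u, hu1, hu2, hu3, rfl⟩ := mem_NwP.1 hs
    by_contra hcon
    have h2 : i < u := by
      by_contra h3
      have h4 := z_anti g (show u ≤ i by omega)
      omega
    have h3 : u ≤ i' := by
      by_contra h4
      have h5 := z_strict hJ hX (show 1 ≤ i' by omega) (show i' < u by omega) hu2
      omega
    exact h1 u h2 h3 hu3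
  · exact absurd h1 hRq

/-! ### Expectations of sums -/

theorem cE_sum' {ι L : Type*} [Fintype L] {n : ℕ} (π : Fin n → L → ℝ) (s : ℕ) (I : Finset ι)
    (F : ι → (Fin n → L) → ℝ) (ω : Fin n → L) :
    cE π s (fun w => ∑ a ∈ I, F a w) ω = ∑ a ∈ I, cE π s (F a) ω := by
  unfold cE
  rw [sum_comm]
  refine sum_congr rfl fun z _ => ?_
  rw [mul_sum]

/-! ### The system of the base of `q₀` -/

open Classical in
/-- the positions of a word -/
noncomputable def ChW (g : Cfg) (S : Finset ℕ) (b : ℕ × ℕ) (ω : Fin (N g) → Fin (Eb g + 1)) :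
    Finset ℕ := if nu g b ω ∈ S then NwP g (nu g b ω) else ∅

/-- the system of the base of `q₀` -/
theorem sys_base (hJ : JsOK g.K g.Js) (hX : g.Js ≤ g.X) (hV : g.V ⊆ Icc 1 (N g)) {c1 c : ℝ}
    (h1 : 0 < c1) (h1e : c1 * Real.exp 24 ≤ 1) (hc : 0 < c) (hc1 : c ≤ 1)
    (hz : 4 ≤ c1 * zs g) {S : Finset ℕ} (hS : S ⊆ g.V) {q₀ : ℕ} (hq₀ : q₀ ∈ S) :
    Sys (wn g q₀) (fun _ => 0) (muw g c1 q₀) 1 (c * c1 / 8) c1 (ChW g S (bl g q₀))
      (fun ω => Pyw g c1 (nu g (bl g q₀) ω)) := by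
  have h0 : 0 ∉ g.V := fun h => by
    have := (mem_Icc.1 (hV h)).1
    omega
  have h1' : c1 ≤ 1 := by
    have h2 : (1 : ℝ) ≤ Real.exp 24 := Real.one_le_exp (by norm_num)
    nlinarith
  have hcc : c * c1 ≤ 1 := mul_le_one₀ hc1 h1.le h1'
  have hcc0 : 0 < c * c1 := mul_pos hc h1
  refine
    { π_nonneg := wn_nonneg q₀
      π_one := wn_sum (hS hq₀)
      μ_nonneg := muw_nonneg h1.le q₀
      μ_le := fun k => ?_
      c_pos := one_pos
      c_le := le_rfl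
      κ_pos := by positivity
      κ_le := by linarith
      ε_nonneg := h1.le
      ε_small := h1e
      dev := fun j => ?_
      pos := fun ω => ?_ }
  · have := muw_le h1 (A := 4) (by norm_num) hz q₀ k
    linarith
  · rw [wn_zero, c1_muw h1.ne']
    linarith
  · unfold ChW
    by_cases hω : nu g (bl g q₀) ω ∈ S
    · rw [if_pos hω]
      obtain ⟨hb, hw⟩ := nu_spec h0 (hS hω)
      have hP := Pos_w hJ hX hV h1 (by linarith) (hS hω)
      have e1 : muw g c1 (nu g (bl g q₀) ω) = muw g c1 q₀ := by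
        funext j
        exact muw_bl (hS hq₀) hb j
      have e2 : (fun k => uw g (nu g (bl g q₀) ω) k = true) = dvw (fun _ => 0) ω := by
        funext k
        unfold uw dvw
        rw [hw]
        simp
      rw [e1, e2] at hP
      exact hP
    · rw [if_neg hω]
      exact ⟨fun s hs => by simp at hs, fun s hs => by simp at hs, fun s hs => by simp at hs⟩

end Vale.P028.SK
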