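-- RD-BASE b75660c7182372280e17e2914d4604cab5f2c044
import Vale.Agent.P028.RD.H530.SF2
attribute [-instance] ProperSMul.toContinuousSMul IsTopologicalTorsor.toContinuousSMul IdemSemiring.toCanonicallyOrderedAdd IdemSemiring.toMulLeftMono IdemSemiring.toMulRightMono AddQuantale.instAddLeftMono AddQuantale.instAddRightMono Quantale.instMulLeftMono Quantale.instMulRightMono FiniteDimensional.rclike_to_real IsScalarTower.complexToReal FiniteDimensional.complexToReal

/-!
# Partners with arbitrary inner parts: the law of their outer labels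

`x` is a modulus, `Y` a set of moduli in the `z_i`-cell of `x`. The hybrid word of `y` has the
outer labels (places `< N - z_i`) of `y` and the inner labels of `x`. Sums over `Y` with the
natural weights `Wt g i y` are at most conditional expectations over the words of the base of `x`.
-/

namespace Vale.P028.SK

open Finset CF RN H669 RK

variable {g : Cfg}

/-- the hybrid word: outer labels of `y`, inner labels of `x` -/
noncomputable def hbw (g : Cfg) (i y x : ℕ) : Fin (N g) → Fin (Eb g + 1) :=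
  mix (N g - z g i) (wo g y) (wo g x)

/-! ### One cell -/

section cell

variable {i x y : ℕ} (h : y ∈ NT.cell g.V (f g) (thr g) (N g) (z g i) x)

include h

theorem Qc_fac_out {p : ℕ} (hp : z g i < p) :
    (Qc g y).factorization p = (Qc g x).factorization p := by
  rw [Qc_fac, Qc_fac, kc_congr h hp]

theorem Spl_out {p : ℕ} (hp : z g i < p) : Spl g y p ↔ Spl g x p := by
  unfold Spl
  rw [NT.cell_eq (NT.cell_mono hp.le x h)]

theorem Md_fac_out {p : ℕ} (hp : z g i < p) : (Md g y).factorization p =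
    if p ∈ PO (zs g) (N g) then kc g x p - y.factorization p else 0 := by
  rw [Md_fac, kc_congr h hp]

theorem wb_out {j : Fin (N g)} (hj : (j : ℕ) < N g - z g i) (e : Fin (Eb g + 1)) :
    wb g (Qc g y) j e = wb g (Qc g x) j e := by
  have h1 : z g i < N g - j := by omega
  unfold wb wj
  rw [Qc_fac_out h h1]

theorem hn_out {j : ℕ} (hj : j < N g - z g i) : hn g y j = hn g x j := by
  have h1 : z g i < N g - j := by omega
  have h2 := Qc_fac_out h h1
  have h3 := Spl_out h h1
  unfold hn
  rw [h2]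
  by_cases h4 : (Qc g x).factorization (N g - j) ≠ 0
  · by_cases h5 : Spl g x (N g - j)
    · rw [if_neg fun h' => h'.2 (h3.2 h5), if_neg fun h' => h'.2 h5]
    · rw [if_pos ⟨h4, fun h' => h5 (h3.1 h')⟩, if_pos ⟨h4, h5⟩]
  · rw [if_neg fun h' => h4 h'.1, if_neg fun h' => h4 h'.1]

theorem muw_out (c1 : ℝ) {j : ℕ} (hj : j < N g - z g i) : muw g c1 y j = muw g c1 x j := by
  unfold muw
  rw [hn_out h hj]

/-- **the natural weight of a partner** is at most the weight of the outer labels of its hybrid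
word in the base of `x` -/
theorem Wt_le_hbw (hz : zs g ≤ z g i) (hy : y ∈ g.V) (hx : x ∈ g.V) :
    Wt g i y ≤ Pm (wn g x) (N g - z g i) (hbw g i y x) := by
  classical
  rw [← Pm_wo hy hz]
  unfold RN.Pm
  refine prod_le_prod (fun j _ => ?_) fun j _ => ?_
  · split_ifs
    · exact wb_nonneg _ _ _
    · exact zero_le_one
  · split_ifs with hj
    · have e1 : hbw g i y x j = wo g y j := by
        unfold hbw mix
        rw [if_pos hj]
      rw [e1, wb_out h hj]
      unfold wn
      have h1 : z g i < N g - j := by omega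
      split_ifs with h2 h3
      · exact wb_le_one hx _ _
      · exfalso
        apply h3
        by_contra hne
        exact (wo_ne_zero hy j).1 hne (Md_split ((Spl_out h h1).2 h2))
      · exact le_rfl
    · exact le_rfl

/-- the hybrid word determines the outer deficit -/
theorem M_of_hbw {y' : ℕ} (h' : y' ∈ NT.cell g.V (f g) (thr g) (N g) (z g i) x)
    (hz : zs g ≤ z g i) (hy : y ∈ g.V) (hy' : y' ∈ g.V) (he : hbw g i y x = hbw g i y' x) :
    M g i y = M g i y' := by
  refine Nat.eq_of_factorization_eq (M_pos g i y).ne' (M_pos g i y').ne' fun p => ?_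
  rw [M_fac', M_fac']
  split_ifs with hp
  · have hp1 := mem_PO.1 hp
    have hj : N g - p < N g := by
      have := hp1.1.pos
      omega
    have hj2 : N g - p < N g - z g i := by omega
    have e1 := congrFun he ⟨N g - p, hj⟩
    unfold hbw mix at e1
    rw [if_pos hj2, if_pos hj2] at e1
    have e2 : ((wo g y ⟨N g - p, hj⟩ : Fin (Eb g + 1)) : ℕ) = wo g y' ⟨N g - p, hj⟩ :=
      congrArg (fun t : Fin (Eb g + 1) => (t : ℕ)) e1
    have e3 : N g - (N g - p) = p := by omega
    rw [wo_val hy, wo_val hy'] at e2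
    change (Md g y).factorization (N g - (N g - p)) =
      (Md g y').factorization (N g - (N g - p)) at e2
    rw [e3] at e2
    rw [Md_fac, Md_fac, if_pos (PO_mono hz hp), if_pos (PO_mono hz hp)] at e2
    exact e2
  · rfl

end cell

/-! ### Sums over partners -/

open Classical in
/-- **Sums over partners with arbitrary inner parts** are at most conditional expectations. -/
theorem out_row_G {i x : ℕ} (hz : zs g ≤ z g i) (hx : x ∈ g.V) (Y : Finset ℕ) (hYV : Y ⊆ g.V)
    (hY : ∀ y ∈ Y, y ∈ NT.cell g.V (f g) (thr g) (N g) (z g i) x) {w : ℕ → ℝ}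
    (hw : ∀ y ∈ Y, 0 ≤ w y) {Φ : (Fin (N g) → Fin (Eb g + 1)) → ℝ} (hΦ : ∀ v, 0 ≤ Φ v) :
    ∑ y ∈ Y, Wt g i y * (w y * Φ (hbw g i y x)) ≤
      cE (wn g x) (N g - z g i)
        (fun v => (∑ y ∈ Y.filter (fun y => hbw g i y x = v), w y) * Φ v) (wo g x) := by
  rw [cE_eq_sum _ (wn_sum hx)]
  calc ∑ y ∈ Y, Wt g i y * (w y * Φ (hbw g i y x))
      ≤ ∑ y ∈ Y, Pm (wn g x) (N g - z g i) (hbw g i y x) * (w y * Φ (hbw g i y x)) :=
        sum_le_sum fun y hy => mul_le_mul_of_nonneg_right (Wt_le_hbw (hY y hy) hz (hYV hy) hx)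
          (mul_nonneg (hw y hy) (hΦ _))
    _ = ∑ v, ∑ y ∈ Y.filter (fun y => hbw g i y x = v),
        Pm (wn g x) (N g - z g i) (hbw g i y x) * (w y * Φ (hbw g i y x)) :=
        (sum_fiberwise_of_maps_to (fun y _ => mem_univ _) _).symm
    _ ≤ _ := by
        refine sum_le_sum fun v _ => ?_
        by_cases hv : SmF (N g - z g i) v (wo g x)
        · rw [if_pos hv, sum_mul, mul_sum]
          refine sum_le_sum fun y hy => ?_
          rw [(mem_filter.1 hy).2]
        · rw [if_neg hv]
          refine le_of_eq (sum_eq_zero fun y hy => ?_)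
          exfalso
          apply hv
          rw [← (mem_filter.1 hy).2]
          exact smF_mix _ _ _

open Classical in
/-- the same with a bound for the multiplicity of every outer deficit -/
theorem out_row {i x : ℕ} (hz : zs g ≤ z g i) (hx : x ∈ g.V) (Y : Finset ℕ) (hYV : Y ⊆ g.V)
    (hY : ∀ y ∈ Y, y ∈ NT.cell g.V (f g) (thr g) (N g) (z g i) x) {w : ℕ → ℝ}
    (hw : ∀ y ∈ Y, 0 ≤ w y) {C₀ : ℝ} (hC : ∀ m, ∑ y ∈ Y.filter (fun y => M g i y = m), w y ≤ C₀)
    {Φ : (Fin (N g) → Fin (Eb g + 1)) → ℝ} (hΦ : ∀ v, 0 ≤ Φ v) :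
    ∑ y ∈ Y, Wt g i y * (w y * Φ (hbw g i y x)) ≤
      C₀ * cE (wn g x) (N g - z g i) Φ (wo g x) := by
  refine (out_row_G hz hx Y hYV hY hw hΦ).trans ?_
  have e1 : C₀ * cE (wn g x) (N g - z g i) Φ (wo g x) =
      cE (wn g x) (N g - z g i) (fun v => C₀ * Φ v) (wo g x) := by
    unfold cE
    rw [mul_sum]
    exact sum_congr rfl fun z _ => by ring
  rw [e1]
  refine cE_mono (wn_nonneg x) (fun v => mul_le_mul_of_nonneg_right ?_ (hΦ v)) _
  rcases (Y.filter (fun y => hbw g i y x = v)).eq_empty_or_nonempty with h0 | ⟨y₀, hy₀⟩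
  · rw [h0, sum_empty]
    have := hC 0
    have h1 : ∀ m, 0 ≤ ∑ y ∈ Y.filter (fun y => M g i y = m), w y := fun m =>
      sum_nonneg fun y hy => hw y (mem_filter.1 hy).1
    exact (h1 0).trans this
  · obtain ⟨hy1, hy2⟩ := mem_filter.1 hy₀
    refine le_trans ?_ (hC (M g i y₀))
    refine sum_le_sum_of_subset_of_nonneg (fun y hy => ?_) fun y hy _ =>
      hw y (mem_filter.1 hy).1
    obtain ⟨h1, h2⟩ := mem_filter.1 hy
    exact mem_filter.2 ⟨h1, M_of_hbw (hY y h1) (hY y₀ hy1) hz (hYV h1) (hYV hy1)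
      (h2.trans hy2.symm)⟩

/-! ### The walk of the hybrid word -/

/-- the flags of a modulus are the deviations of its word -/
theorem uw_dvw (q k : ℕ) : uw g q k = true ↔ dvw (fun _ => 0) (wo g q) k := by
  classical
  unfold uw dvw
  simp

theorem dvw_hbw_lt {i x y k : ℕ} (hk : k < N g - z g i) :
    dvw (fun _ => 0) (hbw g i y x) k ↔ uw g y k = true := by
  rw [uw_dvw]
  exact dvw_mix_lt hk _ _

theorem dvw_hbw_ge {i x y k : ℕ} (hk : N g - z g i ≤ k) :
    dvw (fun _ => 0) (hbw g i y x) k ↔ uw g x k = true := by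
  rw [uw_dvw]
  exact dvw_mix_ge hk _ _

theorem W_congrM {dv dv' : ℕ → Prop} {μ μ' : ℕ → ℝ} {a : ℕ} (h : ∀ k < a, (dv k ↔ dv' k))
    (hm : ∀ k < a, μ k = μ' k) : RK.W dv μ a = RK.W dv' μ' a := by
  classical
  rw [RK.W_congr h]
  clear h
  induction a with
  | zero => rfl
  | succ k ih =>
    have h1 := ih fun j hj => hm j (by omega)
    have h2 := hm k (by omega)
    unfold RK.W
    rw [h1, h2]

/-- the walk of the hybrid word at the outer places is the walk of `y` in its own frame -/
theorem W_hbw {i x y : ℕ} (h : y ∈ NT.cell g.V (f g) (thr g) (N g) (z g i) x) (c1 : ℝ) {a : ℕ}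
    (ha : a ≤ N g - z g i) :
    RK.W (dvw (fun _ => 0) (hbw g i y x)) (muw g c1 x) a =
      RK.W (fun k => uw g y k = true) (muw g c1 y) a :=
  W_congrM (fun k hk => dvw_hbw_lt (by omega)) fun k hk => (muw_out h c1 (by omega)).symm

end Vale.P028.SK
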