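-- RD-BASE 92e159c039ed10d95ce1f8b6f4186caf01a763bb
import Vale.Agent.P028.RD.H232.Fill
import Vale.Agent.P028.H383.Col
import Vale.Agent.P028.RD.H530.Delta
import Vale.Agent.P028.RD.H6.Adders
import Vale.Agent.P028.RD.FQ.BMDefs
attribute [-instance] ProperSMul.toContinuousSMul IsTopologicalTorsor.toContinuousSMul IdemSemiring.toCanonicallyOrderedAdd IdemSemiring.toMulLeftMono IdemSemiring.toMulRightMono AddQuantale.instAddLeftMono AddQuantale.instAddRightMono Quantale.instMulLeftMono Quantale.instMulRightMono FiniteDimensional.rclike_to_real IsScalarTower.complexToReal FiniteDimensional.complexToReal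

/-!
# The dilution in terms of filled numbers

The primes which are omitted with positive probability can be filled; the mass of one phase; the
removers at a fixed stage.
-/

namespace Vale.P028.SK

open Finset CF RN H669 RK

variable {g : Cfg}

/-- the dilution is linear in `c` -/
theorem dd_smul (g : Cfg) (c1 lam c : ℝ) (q p : ℕ) :
    dd g c1 (lam * c) q p = lam * dd g c1 c q p := by
  unfold dd
  rw [mul_sum]
  refine sum_congr rfl fun s _ => ?_
  unfold dlw
  split_ifs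
  · unfold dl
    split_ifs
    · ring
    · rw [mul_zero]
  · rw [mul_zero]

/-- the places with positive dilution are unsplit primes of the centre, not deviating -/
theorem PO_of_dd {c1 c : ℝ} {q p : ℕ} (hp : 0 < p) (hpN : p ≤ N g) (h : dd g c1 c q p ≠ 0) :
    p ∈ PO (zs g) (N g) ∧ ¬ Spl g q p ∧ uw g q (N g - p) = false := by
  have e : N g - (N g - p) = p := by omega
  have h' : dd g c1 c q (N g - (N g - p)) ≠ 0 := by rwa [e]
  obtain ⟨s, -, -, -, -, -, -, h1, h2, h3⟩ := dd_ne h' (by omega)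
  rw [e] at h2 h3
  exact ⟨(Qc_prime h2).1, h3, h1⟩

/-- a sieved dual prime with positive dilution can be filled -/
theorem Flp_of_dd {c1 c : ℝ} {q p : ℕ} (hp : 0 < p) (hpN : p ≤ N g)
    (hk : q.factorization p = kc g q p) (h : dd g c1 c q p ≠ 0) : Flp g q p := by
  obtain ⟨h1, h2, -⟩ := PO_of_dd hp hpN h
  exact ⟨h1, h2, hk⟩

/-- an omitted prime can be filled -/
theorem Flp_of_Omt {c1 c : ℝ} (hV : g.V ⊆ Icc 1 (N g)) {t B q p : ℕ} (hq : q ∈ g.V)
    (h : Omt g (dd g c1 c) t B q p) : Flp g q p := by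
  have hq1 := mem_Icc.1 (hV hq)
  obtain ⟨-, -, h2, h3⟩ := h
  obtain ⟨h4, h5, h6⟩ := (mem_Pm g (by omega : 0 < q)).1 h2
  exact Flp_of_dd h4.pos ((Nat.le_of_dvd (by omega) h5).trans hq1.2) h6.1 h3

/-! ### The phase of a place -/

/-- no newness at the stages after `i` with `t < z`: the newness positions -/
theorem NwP_gap {i t q s : ℕ} (hnw : ∀ j, i < j → t < z g j → ¬ Nw g j q) (hs : s ∈ NwP g q) :
    s ≤ N g - z g i ∨ N g - t ≤ s := by
  obtain ⟨j, -, -, h3, rfl⟩ := mem_NwP.1 hs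
  rcases le_or_gt j i with h | h
  · left
    have := z_anti g h
    omega
  · right
    have : z g j ≤ t := by
      by_contra hcon
      exact hnw j h (by omega) h3
    omega

/-- the phase of the places of the primes `t < p ≤ z i` -/
theorem dd_phase {c1 c : ℝ} {i t q p : ℕ} (hnw : ∀ j, i < j → t < z g j → ¬ Nw g j q)
    (htp : t < p) (hpz : p ≤ z g i) (hpN : p ≤ N g) (h : dd g c1 c q p ≠ 0) :
    ∃ s ∈ NwP g q, s ≤ N g - z g i ∧ N g - z g i < nxw g q s ∧ N g - t ≤ nxw g q s ∧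
      s ≤ N g - p ∧ N g - p < nxw g q s ∧ Pyr g c1 q s ∧
      dd g c1 c q p = dl (muw g c1 q) (uw g q) c s (nxw g q s) (N g - p) := by
  have e : N g - (N g - p) = p := by omega
  have h' : dd g c1 c q (N g - (N g - p)) ≠ 0 := by rwa [e]
  obtain ⟨s, hs, h1, h2, h3, h4, -, -, -, -⟩ := dd_ne h' (by omega)
  rw [e] at h4
  have h5 : N g - z g i < nxw g q s := by omega
  refine ⟨s, hs, ?_, h5, ?_, h2, h3, h1, h4⟩
  · rcases NwP_gap hnw hs with h6 | h6
    · exact h6
    · omega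
  · rcases nx_mem_or (Ch := NwP g q) (n := N g) s with h6 | h6
    · unfold nxw
      rw [h6]
      exact Nat.sub_le _ _
    · rcases NwP_gap hnw h6 with h7 | h7
      · unfold nxw at h5
        omega
      · exact h7

/-- the mass of one phase -/
theorem mass_phase {c1 c lam : ℝ} (h1 : 0 < c1) (hc : 0 ≤ c) (hl : 0 ≤ lam) {q s : ℕ}
    (hs : s ∈ NwP g q) {Ps : Finset ℕ} (hPs : ∀ p ∈ Ps, p ≤ N g ∧ 0 < p ∧ s ≤ N g - p ∧
      N g - p < nxw g q s ∧ dd g c1 c q p ≠ 0) :
    ∏ p ∈ Ps, (1 + 2 * (lam * dd g c1 c q p) / p) ≤ Real.exp (lam * (c * c1)) := by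
  have h2 := sum_dd_phase h1 hc hs (U := Ps) hPs
  have h3 : ∏ p ∈ Ps, (1 + 2 * (lam * dd g c1 c q p) / p) ≤
      ∏ p ∈ Ps, Real.exp (2 * lam * (dd g c1 c q p / p)) := by
    refine prod_le_prod (fun p _ => ?_) fun p _ => ?_
    · have := dd_nonneg (g := g) h1.le hc q p
      positivity
    · have h4 := Real.add_one_le_exp (2 * lam * (dd g c1 c q p / p))
      have h5 : 2 * (lam * dd g c1 c q p) / p = 2 * lam * (dd g c1 c q p / p) := by ring
      rw [h5]
      linarith
  refine h3.trans ?_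
  rw [← Real.exp_sum, Real.exp_le_exp, ← mul_sum]
  nlinarith

/-! ### The removers at a fixed stage -/

section

variable {y : ℕ} {S : Finset ℕ} {v : ℕ → ℕ}

/-- **the removers of the number `y` at the stage `i`**, in number language: `y` may be virtual -/
theorem rem_fill {c1 c : ℝ} (h1 : 0 < c1) (hc : 0 ≤ c) (hc1 : c < 1) (hz : 2 ≤ c1 * zs g)
    (hV : g.V ⊆ Icc 1 (N g)) {i t y : ℕ} (S : Finset ℕ) (v : ℕ → ℕ)
    (hS : ∀ q ∈ S, q ∈ g.V) (hqv : ∀ q ∈ S, q = y * v q)
    (hp : ∀ q ∈ S, ∀ p : ℕ, p.Prime → p ∣ v q →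
      t < p ∧ p ≤ z g i ∧ q.factorization p = kc g q p)
    (hnw : ∀ q ∈ S, ∀ j, i < j → t < z g j → ¬ Nw g j q) :
    ∑ q ∈ S, ∏ p ∈ (v q).primeFactors, dd g c1 c q p ≤ 1 / (1 - c) := by
  classical
  set T := S.filter (fun q => ∀ p ∈ (v q).primeFactors, dd g c1 c q p ≠ 0) with hT
  have e1 : ∑ q ∈ S, ∏ p ∈ (v q).primeFactors, dd g c1 c q p =
      ∑ q ∈ T, ∏ p ∈ (v q).primeFactors, dd g c1 c q p := by
    rw [hT, sum_filter]
    refine sum_congr rfl fun x _ => ?_
    split_ifs with h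
    · rfl
    · push Not at h
      obtain ⟨a, ha, h0⟩ := h
      exact prod_eq_zero ha h0
  rw [e1]
  rcases T.eq_empty_or_nonempty with h0 | ⟨q0, hq0⟩
  · rw [h0, sum_empty]
    exact one_div_nonneg.2 (by linarith)
  -- basic facts
  have b1 : ∀ q ∈ T, q ∈ g.V ∧ 1 ≤ q ∧ q ≤ N g ∧ v q ≠ 0 ∧ v q ∣ q ∧ q / v q = y := by
    intro q hq
    have h2 := (mem_filter.1 hq).1
    have h3 := mem_Icc.1 (hV (hS q h2))
    have h4 := hqv q h2
    have h5 : v q ≠ 0 := by
      intro h6
      rw [h6, mul_zero] at h4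
      omega
    have h6 : v q ∣ q := Dvd.intro_left y h4.symm
    refine ⟨hS q h2, h3.1, h3.2, h5, h6, ?_⟩
    refine Nat.div_eq_of_eq_mul_left (Nat.pos_of_ne_zero h5) h4
  have b2 : ∀ q ∈ T, ∀ p : ℕ, p.Prime → p ∣ v q → Flp g q p ∧ t < p ∧ p ≤ z g i ∧ p ≤ N g ∧
      dd g c1 c q p ≠ 0 := by
    intro q hq p hpp hpv
    obtain ⟨-, h3, h4, h5, h6, -⟩ := b1 q hq
    obtain ⟨h7, h8, h9⟩ := hp q (mem_filter.1 hq).1 p hpp hpv
    have h10 : p ≤ N g := (Nat.le_of_dvd (by omega) (hpv.trans h6)).trans h4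
    have h11 : dd g c1 c q p ≠ 0 :=
      (mem_filter.1 hq).2 p (Nat.mem_primeFactors.2 ⟨hpp, hpv, h5⟩)
    exact ⟨Flp_of_dd hpp.pos h10 h9 h11, h7, h8, h10, h11⟩
  have b3 : ∀ q ∈ T, bl g y = bl g q ∧ ∀ p, kc g y p = kc g q p := by
    intro q hq
    obtain ⟨-, h3, -, -, h6, h7⟩ := b1 q hq
    have h8 := fill_bl (by omega : 0 < q) h6 (fun p hpp hpv => (b2 q hq p hpp hpv).1)
    have h9 := fill_kc (y := q) h6 (fun p hpp hpv => (b2 q hq p hpp hpv).1)
    rw [h7] at h8 h9
    exact ⟨h8, h9⟩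
  have b4 : ∀ q ∈ T, muw g c1 q = muw g c1 q0 := by
    intro q hq
    funext j
    exact muw_bl (b1 q0 hq0).1 ((b3 q hq).1.symm.trans (b3 q0 hq0).1) j
  set μ := muw g c1 q0 with hμdef
  have hμ0 : ∀ j, 0 ≤ μ j := muw_nonneg h1.le q0
  have hμ2 : ∀ j, μ j ≤ 1 / 2 := muw_le h1 two_pos hz q0
  have hy : y ≠ 0 := by
    intro h
    have h2 := hqv q0 (mem_filter.1 hq0).1
    have h3 := (b1 q0 hq0).2.1
    rw [h, zero_mul] at h2
    omega
  set u : ℕ → Bool := fun j => decide ((Md g y).factorization (N g - j) ≠ 0) with hu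
  set A : ℕ → Finset ℕ := fun q => (v q).primeFactors.image (fun p => N g - p) with hA
  -- the exponents
  have b5 : ∀ q ∈ T, ∀ p, q.factorization p = y.factorization p + (v q).factorization p := by
    intro q hq p
    have h2 := hqv q (mem_filter.1 hq).1
    have h3 := (b1 q hq).2.2.2.1
    conv_lhs => rw [h2]
    rw [Nat.factorization_mul hy h3, Finsupp.add_apply]
  -- the words
  have b6 : ∀ q ∈ T, ∀ j < N g, emp u (A q) j = uw g q j := by
    intro q hq j hj
    obtain ⟨hqV, -, -, hv0, -, -⟩ := b1 q hq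
    by_cases hjA : j ∈ A q
    · rw [emp_mem hjA]
      symm
      rw [uw_false hqV hj]
      rw [hA] at hjA
      simp only at hjA
      obtain ⟨p, hp1, rfl⟩ := mem_image.1 hjA
      obtain ⟨hpp, hpv, -⟩ := Nat.mem_primeFactors.1 hp1
      obtain ⟨⟨h2, h3, h4⟩, h5, h6, h7, h8⟩ := b2 q hq p hpp hpv
      have e : N g - (N g - p) = p := by omega
      rw [e, Md_fac, if_pos h2, h4]
      omega
    · rw [emp_not hjA]
      have h2 : (v q).factorization (N g - j) = 0 := by
        by_contra hne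
        apply hjA
        rw [hA]
        simp only
        refine mem_image.2 ⟨N g - j, ?_, by omega⟩
        rw [← Nat.support_factorization, Finsupp.mem_support_iff]
        exact hne
      have h3 : (Md g q).factorization (N g - j) = (Md g y).factorization (N g - j) := by
        rw [Md_fac, Md_fac, (b3 q hq).2, b5 q hq, h2, add_zero]
      rw [hu]
      simp only
      rw [← h3]
      by_cases h4 : (Md g q).factorization (N g - j) = 0
      · rw [(uw_false hqV hj).2 h4, h4]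
        simp
      · rw [(uw_true hqV hj).2 h4]
        simpa using h4
  -- the phases
  have b7 : ∀ q ∈ T, ∃ s ≤ N g - z g i, ∀ p ∈ (v q).primeFactors,
      dd g c1 c q p ≤ dl μ (emp u (A q)) c s (N g - t) (N g - p) := by
    intro q hq
    rcases (v q).primeFactors.eq_empty_or_nonempty with h2 | ⟨p0, hp0⟩
    · refine ⟨0, Nat.zero_le _, fun p hp1 => ?_⟩
      rw [h2] at hp1
      exact absurd hp1 (notMem_empty p)
    · have hn := hnw q (mem_filter.1 hq).1
      obtain ⟨hpp0, hpv0, -⟩ := Nat.mem_primeFactors.1 hp0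
      obtain ⟨-, h5, h6, h7, h8⟩ := b2 q hq p0 hpp0 hpv0
      obtain ⟨s, hs, hs1, hs2, hs3, -, -, -, -⟩ := dd_phase hn h5 h6 h7 h8
      refine ⟨s, hs1, fun p hp1 => ?_⟩
      obtain ⟨hpp, hpv, -⟩ := Nat.mem_primeFactors.1 hp1
      obtain ⟨-, g5, g6, g7, g8⟩ := b2 q hq p hpp hpv
      obtain ⟨s', hs', k1, k2, k3, k4, k5, -, k6⟩ := dd_phase hn g5 g6 g7 g8
      have hss : s' = s := phase_unique hs' hs k1 k2 hs1 hs2
      subst hss
      rw [k6, b4 q hq]
      refine (dl_le_cut (μ := μ) (u := uw g q) hc hμ0 k3 (by omega)).trans (le_of_eq ?_)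
      exact dl_congr_cut fun k _ hk => (b6 q hq k (by omega)).symm
  choose! st hst1 hst2 using b7
  have hinj : ∀ q ∈ T, Set.InjOn (fun p => N g - p) ((v q).primeFactors : Set ℕ) := by
    intro q hq a ha b hb hab
    obtain ⟨ha1, ha2, -⟩ := Nat.mem_primeFactors.1 ha
    obtain ⟨hb1, hb2, -⟩ := Nat.mem_primeFactors.1 hb
    have h2 := (b2 q hq a ha1 ha2).2.2.2.1
    have h3 := (b2 q hq b hb1 hb2).2.2.2.1
    simp only at hab
    omega
  have key := col_sum (u := u) hμ0 hμ2 hc hc1 (m := N g - z g i) (e := N g - t) T A st 1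
    (fun q hq => hst1 q hq) (fun q hq a ha => by
      rw [hA] at ha
      simp only at ha
      obtain ⟨p, hp1, rfl⟩ := mem_image.1 ha
      obtain ⟨hpp, hpv, -⟩ := Nat.mem_primeFactors.1 hp1
      obtain ⟨⟨g1, g2, g3⟩, g5, g6, g7, g8⟩ := b2 q hq p hpp hpv
      refine ⟨by omega, ?_⟩
      have e : N g - (N g - p) = p := by omega
      rw [hu]
      simp only
      rw [e, Md_fac, if_pos g1, decide_eq_true_iff, (b3 q hq).2, ← g3, b5 q hq]
      have h9 : 1 ≤ (v q).factorization p :=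
        (hpp.dvd_iff_one_le_factorization (b1 q hq).2.2.2.1).1 hpv
      omega) ?_
  · rw [Nat.cast_one, one_mul] at key
    refine le_trans (sum_le_sum fun q hq => ?_) key
    rw [hA]
    simp only
    rw [prod_image (hinj q hq)]
    exact prod_le_prod (fun p _ => dd_nonneg h1.le hc q p) fun p hp1 => hst2 q hq p hp1
  · intro B
    rw [card_le_one]
    intro a ha b hb
    obtain ⟨ha1, ha2⟩ := mem_filter.1 ha
    obtain ⟨hb1, hb2⟩ := mem_filter.1 hb
    have hsub : ∀ a ∈ T, ∀ b ∈ T, A a = A b → ∀ p ∈ (v a).primeFactors,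
        p ∈ (v b).primeFactors := by
      intro a ha b hb hab p hp1
      obtain ⟨hpp, hpv, -⟩ := Nat.mem_primeFactors.1 hp1
      have h2 : N g - p ∈ A b := by
        rw [← hab, hA]
        exact mem_image_of_mem _ hp1
      rw [hA] at h2
      simp only at h2
      obtain ⟨p', hp', h3⟩ := mem_image.1 h2
      obtain ⟨hpp', hpv', -⟩ := Nat.mem_primeFactors.1 hp'
      have h4 := (b2 a ha p hpp hpv).2.2.2.1
      have h5 := (b2 b hb p' hpp' hpv').2.2.2.1
      have : p' = p := by omega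
      rwa [← this]
    have hab : A a = A b := ha2.trans hb2.symm
    have hval : ∀ a ∈ T, ∀ p ∈ (v a).primeFactors,
        (v a).factorization p = kc g y p - y.factorization p := by
      intro a ha p hp1
      obtain ⟨hpp, hpv, -⟩ := Nat.mem_primeFactors.1 hp1
      obtain ⟨⟨-, -, h3⟩, -⟩ := b2 a ha p hpp hpv
      have h4 := b5 a ha p
      rw [(b3 a ha).2, ← h3]
      omega
    have hvv : v a = v b := by
      refine Nat.eq_of_factorization_eq (b1 a ha1).2.2.2.1 (b1 b hb1).2.2.2.1 fun p => ?_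
      by_cases h : p ∈ (v a).primeFactors
      · rw [hval a ha1 p h, hval b hb1 p (hsub a ha1 b hb1 hab p h)]
      · have h' : p ∉ (v b).primeFactors := fun h2 => h (hsub b hb1 a ha1 hab.symm p h2)
        rw [← Nat.support_factorization, Finsupp.notMem_support_iff] at h h'
        rw [h, h']
    rw [hqv a (mem_filter.1 ha1).1, hqv b (mem_filter.1 hb1).1, hvv]

/-- the same with a factor in the weights -/
theorem rem_fill_lam {c1 c lam : ℝ} (h1 : 0 < c1) (hc : 0 ≤ lam * c) (hc1 : lam * c < 1)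
    (hz : 2 ≤ c1 * zs g)
    (hV : g.V ⊆ Icc 1 (N g)) {i t y : ℕ} (S : Finset ℕ) (v : ℕ → ℕ)
    (hS : ∀ q ∈ S, q ∈ g.V) (hqv : ∀ q ∈ S, q = y * v q)
    (hp : ∀ q ∈ S, ∀ p : ℕ, p.Prime → p ∣ v q →
      t < p ∧ p ≤ z g i ∧ q.factorization p = kc g q p)
    (hnw : ∀ q ∈ S, ∀ j, i < j → t < z g j → ¬ Nw g j q) :
    ∑ q ∈ S, ∏ p ∈ (v q).primeFactors, (lam * dd g c1 c q p) ≤ 1 / (1 - lam * c) := by
  have h := rem_fill h1 hc hc1 hz hV S v hS hqv hp hnw
  simp only [dd_smul] at h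
  exact h

end

end Vale.P028.SK
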