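-- RD-BASE 83b25db078a1275ac8508121e05bf1745c5981bb
import Vale.Agent.P028.H232.TreeF
import Vale.Agent.P028.RD.H383.RemX
import Vale.Agent.P028.RD.H530.FillDD
import Vale.Agent.P028.RD.H758.XTree
attribute [-instance] ProperSMul.toContinuousSMul IsTopologicalTorsor.toContinuousSMul IdemSemiring.toCanonicallyOrderedAdd IdemSemiring.toMulLeftMono IdemSemiring.toMulRightMono AddQuantale.instAddLeftMono AddQuantale.instAddRightMono Quantale.instMulLeftMono Quantale.instMulRightMono FiniteDimensional.rclike_to_real IsScalarTower.complexToReal FiniteDimensional.complexToReal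

/-!
# The row of one modulus over the partners which leak at omitted primes

`q` is fixed, `r` runs over a set `S` of moduli with the same exponents at the primes `> x`. At the
primes `t < p ≤ x` not dividing `B` the exponents of `q` and `r` differ only by deviations (from the
central exponents), by omitted primes of `q` (adders) and by omitted primes of `r` (removers).
-/

namespace Vale.P028.SK.X1B

open Finset CF RN H669 RK

variable {g : Cfg}

open Classical in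
/-- the weight of `r` at the prime `p` in the row of `q` -/
noncomputable def w1 (g : Cfg) (c1 c lam s : ℝ) (t B q r p : ℕ) : ℝ :=
  if t < p ∧ ¬ p ∣ B ∧ r.factorization p < q.factorization p ∧ q.factorization p = kc g q p then
    lam * dd g c1 c q p * ((p ^ (q.factorization p - r.factorization p) : ℕ) : ℝ) ^ (-(1 - s))
  else if t < p ∧ ¬ p ∣ B ∧ q.factorization p < r.factorization p ∧ r.factorization p = kc g r p then
    lam * dd g c1 c r p
  else ((p ^ ((q.factorization p - r.factorization p) + (r.factorization p - q.factorization p)) : ℕ) : ℝ) ^ (-(5 / 12 : ℝ))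

/-- the data of the row -/
structure X1H (g : Cfg) (c1 c : ℝ) (t0 t x B q : ℕ) (S : Finset ℕ) : Prop where
  hV : g.V ⊆ Icc 1 (N g)
  t0t : t0 ≤ t
  zt : zs g ≤ t
  hq : q ∈ V1 g
  hS : S ⊆ V1 g
  hout : ∀ r ∈ S, ∀ r' ∈ S, ∀ p, p.Prime → x < p → r.factorization p = r'.factorization p
  hinj : ∀ r ∈ S, ∀ r' ∈ S, (∀ p, p.Prime → t0 < p → r.factorization p = r'.factorization p) →
    r = r'
  hlt : ∀ r ∈ S, ∀ p, p.Prime → t < p → p ≤ x → ¬ p ∣ B → r.factorization p < q.factorization p →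
    q.factorization p < kc g q p ∨ (q.factorization p = kc g q p ∧ dd g c1 c q p ≠ 0)
  hgt : ∀ r ∈ S, ∀ p, p.Prime → t < p → p ≤ x → ¬ p ∣ B → q.factorization p < r.factorization p →
    r.factorization p < kc g r p ∨ (r.factorization p = kc g r p ∧ dd g c1 c r p ≠ 0)
  hph : ∀ r ∈ S, ∃ a ∈ NwP g r, a ≤ N g - x ∧ N g - t ≤ nxw g r a
  hphq : ∃ a ∈ NwP g q, a ≤ N g - x ∧ N g - t ≤ nxw g q a

/-- the prime `p` is omitted by `r` -/
def Rmv (g : Cfg) (t B q r p : ℕ) : Prop :=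
  t < p ∧ ¬ p ∣ B ∧ q.factorization p < r.factorization p ∧ r.factorization p = kc g r p

open Classical in
/-- the filled label -/
noncomputable def flb (g : Cfg) (t B q p r : ℕ) : ℕ :=
  if Rmv g t B q r p then q.factorization p else r.factorization p

/-- the node is off-centre -/
def OfC (g : Cfg) (q r p : ℕ) : Prop := ¬ Spl g r p ∧ q.factorization p < kc g r p

/-- the place can carry adders -/
def Adr (g : Cfg) (t B q p : ℕ) : Prop := t < p ∧ ¬ p ∣ B ∧ q.factorization p = kc g q p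

/-- the place is not in the common centre -/
def Flg (g : Cfg) (t B q r p : ℕ) : Prop :=
  p ≤ t ∨ p ∣ B ∨ q.factorization p < kc g q p ∨ OfC g q r p

open Classical in
noncomputable def xad (g : Cfg) (c1 c lam s : ℝ) (t B q p : ℕ) : ℝ :=
  if Adr g t B q p then 3 * (lam * dd g c1 c q p * (p : ℝ) ^ (-(1 - s))) else 0

open Classical in
noncomputable def xof (g : Cfg) (t B q r p : ℕ) : ℝ :=
  if Flg g t B q r p then 8 * (p : ℝ) ^ (-(5 / 12 : ℝ)) else 0

open Classical in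
/-- the weight of the filled label `e` -/
noncomputable def phw (g : Cfg) (c1 c lam s : ℝ) (t B q p e : ℕ) : ℝ :=
  if e < q.factorization p ∧ Adr g t B q p then
    lam * dd g c1 c q p * ((p ^ (q.factorization p - e) : ℕ) : ℝ) ^ (-(1 - s))
  else ((p ^ ((e - q.factorization p) + (q.factorization p - e)) : ℕ) : ℝ) ^ (-(5 / 12 : ℝ))

/-! ### Elementary sums -/

theorem geo_lt {u : ℝ} (hu : 0 ≤ u) (hu1 : u ≤ 2 / 3) (v : ℕ) {E : Finset ℕ}
    (hE : ∀ e ∈ E, e < v) : ∑ e ∈ E, u ^ (v - e) ≤ 3 * u := by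
  have h1 : ∑ e ∈ E, u ^ (v - e) ≤ ∑ e ∈ range v, u ^ (v - e) :=
    sum_le_sum_of_subset_of_nonneg (fun e he => mem_range.2 (hE e he)) fun e _ _ => pow_nonneg hu _
  have h2 : ∀ v : ℕ, ∑ e ∈ range v, u ^ (v - e) ≤ 3 * u := by
    intro v
    induction v with
    | zero => simpa using hu
    | succ v ih =>
      rw [sum_range_succ]
      have h3 : ∑ e ∈ range v, u ^ (v + 1 - e) = u * ∑ e ∈ range v, u ^ (v - e) := by
        rw [mul_sum]
        refine sum_congr rfl fun e he => ?_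
        have := mem_range.1 he
        rw [show v + 1 - e = (v - e) + 1 by omega, pow_succ']
      rw [h3, show v + 1 - v = 1 by omega, pow_one]
      nlinarith
  exact h1.trans (h2 v)

theorem rpow_pow_nat {p : ℕ} (k : ℕ) (a : ℝ) :
    ((p ^ k : ℕ) : ℝ) ^ a = ((p : ℝ) ^ a) ^ k := by
  have hp0 : (0 : ℝ) ≤ p := Nat.cast_nonneg _
  rw [Nat.cast_pow, ← Real.rpow_natCast, ← Real.rpow_mul hp0, mul_comm,
    Real.rpow_mul hp0, Real.rpow_natCast]

theorem rpow_le_twothird {p : ℕ} (hp : 2 ≤ p) {s : ℝ} (hs : s ≤ 1 / 4) :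
    (p : ℝ) ^ (-(1 - s)) ≤ 2 / 3 := by
  have h1 : (p : ℝ) ^ (-(1 - s)) ≤ (p : ℝ) ^ (-(3 / 4 : ℝ)) :=
    Real.rpow_le_rpow_of_exponent_le (by exact_mod_cast (by omega : 1 ≤ p)) (by linarith)
  have h2 : (p : ℝ) ^ (-(3 / 4 : ℝ)) ≤ (2 : ℝ) ^ (-(3 / 4 : ℝ)) :=
    Real.rpow_le_rpow_of_nonpos (by norm_num) (by exact_mod_cast hp) (by norm_num)
  have h3 : (2 : ℝ) ^ (-(3 / 4 : ℝ)) ≤ 2 / 3 := by
    have h4 : ((2 : ℝ) ^ (-(3 / 4 : ℝ))) ^ (4 : ℕ) ≤ (2 / 3 : ℝ) ^ (4 : ℕ) := by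
      rw [← Real.rpow_natCast, ← Real.rpow_mul (by norm_num)]
      norm_num
    exact le_of_pow_le_pow_left₀ (by norm_num) (by norm_num) h4
  linarith

/-! ### The tree -/

section X1

variable {c1 c : ℝ} {t0 t x B q : ℕ} {S : Finset ℕ}

theorem w1_nonneg (h1 : 0 ≤ c1) (hc : 0 ≤ c) {lam s : ℝ} (hlam : 0 ≤ lam) (r p : ℕ) :
    0 ≤ w1 g c1 c lam s t B q r p := by
  unfold w1
  split_ifs
  · exact mul_nonneg (mul_nonneg hlam (dd_nonneg h1 hc _ _))
      (Real.rpow_nonneg (Nat.cast_nonneg _) _)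
  · exact mul_nonneg hlam (dd_nonneg h1 hc _ _)
  · exact Real.rpow_nonneg (Nat.cast_nonneg _) _

theorem phw_nonneg (h1 : 0 ≤ c1) (hc : 0 ≤ c) {lam s : ℝ} (hlam : 0 ≤ lam) (p e : ℕ) :
    0 ≤ phw g c1 c lam s t B q p e := by
  unfold phw
  split_ifs
  · exact mul_nonneg (mul_nonneg hlam (dd_nonneg h1 hc _ _))
      (Real.rpow_nonneg (Nat.cast_nonneg _) _)
  · exact Real.rpow_nonneg (Nat.cast_nonneg _) _

theorem xad_nonneg (h1 : 0 ≤ c1) (hc : 0 ≤ c) {lam s : ℝ} (hlam : 0 ≤ lam) (p : ℕ) :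
    0 ≤ xad g c1 c lam s t B q p := by
  unfold xad
  split_ifs
  · exact mul_nonneg (by norm_num) (mul_nonneg (mul_nonneg hlam (dd_nonneg h1 hc _ _))
      (Real.rpow_nonneg (Nat.cast_nonneg _) _))
  · exact le_rfl

theorem xof_nonneg (r p : ℕ) : 0 ≤ xof g t B q r p := by
  unfold xof
  split_ifs
  · positivity
  · exact le_rfl

/-- the weights in terms of the filled labels -/
theorem w1_of_not_Rmv {lam s : ℝ} {r p : ℕ} (h : ¬ Rmv g t B q r p) :
    w1 g c1 c lam s t B q r p = phw g c1 c lam s t B q p (flb g t B q p r) := by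
  unfold w1 phw flb
  rw [if_neg h]
  by_cases h2 : r.factorization p < q.factorization p ∧ Adr g t B q p
  · rw [if_pos ⟨h2.2.1, h2.2.2.1, h2.1, h2.2.2.2⟩, if_pos h2]
  · rw [if_neg fun h' => h2 ⟨h'.2.2.1, h'.1, h'.2.1, h'.2.2.2⟩, if_neg h2]
    unfold Rmv at h
    rw [if_neg h]
    congr 3
    omega

theorem phw_Rmv {lam s : ℝ} {r p : ℕ} (h : Rmv g t B q r p) :
    phw g c1 c lam s t B q p (flb g t B q p r) = 1 := by
  unfold phw flb
  rw [if_pos h, if_neg fun h' => lt_irrefl _ h'.1]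
  simp

theorem w1_of_Rmv {lam s : ℝ} {r p : ℕ} (h : Rmv g t B q r p) :
    w1 g c1 c lam s t B q r p = lam * dd g c1 c r p := by
  unfold w1
  unfold Rmv at h
  rw [if_neg fun h' => by have := h.2.2.1; have := h'.2.2.1; omega, if_pos h]

variable (H : X1H g c1 c t0 t x B q S)

include H

theorem X1H.V {r : ℕ} (hr : r ∈ S) : r ∈ g.V ∧ 1 ≤ r ∧ r ≤ N g := by
  have h2 := (mem_filter.1 (V1_sub g (H.hS hr))).1
  have h3 := mem_Icc.1 (H.hV h2)
  exact ⟨h2, h3.1, h3.2⟩

/-- an omitted prime of `r` is unsplit -/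
theorem X1H.dd_Rmv {r p : ℕ} (hr : r ∈ S) (hp : p.Prime) (hpx : p ≤ x) (h : Rmv g t B q r p) :
    dd g c1 c r p ≠ 0 ∧ ¬ Spl g r p ∧ p ≤ N g := by
  have h1 : dd g c1 c r p ≠ 0 := by
    rcases H.hgt r hr p hp h.1 hpx h.2.1 h.2.2.1 with h2 | h2
    · have := h.2.2.2
      omega
    · exact h2.2
  obtain ⟨h2, h3, h4⟩ := H.V hr
  have h5 : p ≤ N g := by
    have h6 : p ∣ r := by
      by_contra hcon
      have := Nat.factorization_eq_zero_of_not_dvd hcon
      have := h.2.2.1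
      omega
    exact (Nat.le_of_dvd (by omega) h6).trans h4
  exact ⟨h1, (PO_of_dd hp.pos h5 h1).2.1, h5⟩

/-- the cells above `p` are functions of the filled labels above `p` -/
theorem X1H.cell {r r' : ℕ} (hr : r ∈ S) (hr' : r' ∈ S) {p : ℕ} (hp : t0 ≤ p)
    (h : ∀ p' ∈ (prN (N g)).filter (fun p => t0 < p ∧ p ≤ x), p < p' →
      flb g t B q p' r' = flb g t B q p' r) :
    r' ∈ NT.cell g.V (f g) (thr g) (N g) p r := by
  refine cell_of_unsplitX (H.V hr').1 fun p' hp' h1 h2 hne => ?_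
  have h3 : p' ≤ x := by
    by_contra hcon
    exact hne (H.hout r' hr' r hr p' hp' (by omega))
  have h4 := h p' (mem_filter.2 ⟨mem_filter.2 ⟨mem_Icc.2 ⟨hp'.pos, h2⟩, hp'⟩,
    by omega, h3⟩) h1
  by_cases h5 : Rmv g t B q r p'
  · exact Or.inl (H.dd_Rmv hr hp' h3 h5).2.1
  · by_cases h6 : Rmv g t B q r' p'
    · exact Or.inr (H.dd_Rmv hr' hp' h3 h6).2.1
    · unfold flb at h4
      rw [if_neg h5, if_neg h6] at h4
      exact absurd h4 hne

end X1

theorem kc_dom {r p : ℕ} (hp : p ≤ N g) (h : ¬ Spl g r p) :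
    kc g r p = NT.dom (f g) (NT.cell g.V (f g) (thr g) (N g) p r) p := by
  unfold kc NT.kN
  rw [if_pos hp]
  exact NT.kk_of_not_split h

theorem kc_spl {r p : ℕ} (hp : p ≤ N g) (h : Spl g r p) : kc g r p = r.factorization p := by
  unfold kc NT.kN
  rw [if_pos hp]
  exact NT.kk_of_split h

theorem OfC_congr {q r r' p : ℕ} (hp : p ≤ N g)
    (h : r' ∈ NT.cell g.V (f g) (thr g) (N g) p r) : OfC g q r' p ↔ OfC g q r p := by
  have h1 : Spl g r' p ↔ Spl g r p := by
    unfold Spl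
    rw [NT.cell_eq h]
  unfold OfC
  by_cases h2 : Spl g r p
  · exact ⟨fun h3 => absurd (h1.2 h2) h3.1, fun h3 => absurd h2 h3.1⟩
  · have h3 : ¬ Spl g r' p := fun h4 => h2 (h1.1 h4)
    rw [kc_dom hp h2, kc_dom hp h3, NT.cell_eq h]
    exact ⟨fun h4 => ⟨h2, h4.2⟩, fun h4 => ⟨h3, h4.2⟩⟩

section X1

variable {c1 c : ℝ} {t0 t x B q : ℕ} {S : Finset ℕ}

/-- the sum of the adders' weights at one place -/
theorem adr_sum (h1 : 0 ≤ c1) (hc : 0 ≤ c) {lam s : ℝ} (hlam : 0 ≤ lam) (hs : s ≤ 1 / 4) {p : ℕ}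
    (hp : 2 ≤ p) (E : Finset ℕ) [DecidablePred fun e => e < q.factorization p ∧ Adr g t B q p] :
    ∑ e ∈ E, (if e < q.factorization p ∧ Adr g t B q p then
      lam * dd g c1 c q p * ((p ^ (q.factorization p - e) : ℕ) : ℝ) ^ (-(1 - s)) else 0) ≤
      xad g c1 c lam s t B q p := by
  classical
  by_cases hA : Adr g t B q p
  · unfold xad
    rw [if_pos hA, ← sum_filter]
    have e1 : ∑ e ∈ E.filter (fun e => e < q.factorization p ∧ Adr g t B q p),
        lam * dd g c1 c q p * ((p ^ (q.factorization p - e) : ℕ) : ℝ) ^ (-(1 - s)) =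
        lam * dd g c1 c q p * ∑ e ∈ E.filter (fun e => e < q.factorization p ∧ Adr g t B q p),
          ((p : ℝ) ^ (-(1 - s))) ^ (q.factorization p - e) := by
      rw [mul_sum]
      exact sum_congr rfl fun e _ => by rw [rpow_pow_nat]
    rw [e1]
    have h2 := geo_lt (u := (p : ℝ) ^ (-(1 - s))) (by positivity) (rpow_le_twothird hp hs)
      (q.factorization p) (E := E.filter (fun e => e < q.factorization p ∧ Adr g t B q p))
      fun e he => (mem_filter.1 he).2.1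
    calc _ ≤ lam * dd g c1 c q p * (3 * (p : ℝ) ^ (-(1 - s))) :=
          mul_le_mul_of_nonneg_left h2 (mul_nonneg hlam (dd_nonneg h1 hc _ _))
      _ = _ := by ring
  · refine le_trans (le_of_eq (sum_eq_zero fun e _ => ?_)) (xad_nonneg h1 hc hlam p)
    rw [if_neg fun h => hA h.2]

theorem phw_le_lab {lam s : ℝ} {p : ℕ} (e : ℕ)
    [Decidable (e < q.factorization p ∧ Adr g t B q p)] :
    phw g c1 c lam s t B q p e ≤
      ((p ^ ((e - q.factorization p) + (q.factorization p - e)) : ℕ) : ℝ) ^ (-(5 / 12 : ℝ)) +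
      (if e < q.factorization p ∧ Adr g t B q p then
      lam * dd g c1 c q p * ((p ^ (q.factorization p - e) : ℕ) : ℝ) ^ (-(1 - s)) else 0) := by
  unfold phw
  split_ifs
  · have : (0 : ℝ) ≤ ((p ^ ((e - q.factorization p) + (q.factorization p - e)) : ℕ) : ℝ) ^
        (-(5 / 12 : ℝ)) := by positivity
    linarith
  · rw [add_zero]

variable (H : X1H g c1 c t0 t x B q S)

include H

/-- the labels at an unflagged place -/
theorem X1H.unfl {r p : ℕ} (hr : r ∈ S) (hp : p.Prime) (hpx : p ≤ x) (h : ¬ Flg g t B q r p) :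
    flb g t B q p r ≤ q.factorization p ∧
      (flb g t B q p r < q.factorization p → Adr g t B q p) := by
  unfold Flg at h
  push Not at h
  obtain ⟨h1, h2, h3, h4⟩ := h
  by_cases h5 : Rmv g t B q r p
  · unfold flb
    rw [if_pos h5]
    exact ⟨le_rfl, fun h => absurd h (lt_irrefl _)⟩
  unfold flb
  rw [if_neg h5]
  constructor
  · by_contra hcon
    push Not at hcon
    rcases H.hgt r hr p hp h1 hpx h2 hcon with h6 | h6
    · have hpN : p ≤ N g := by
        obtain ⟨-, g2, g3⟩ := H.V hr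
        have h7 : p ∣ r := by
          by_contra hcon'
          have := Nat.factorization_eq_zero_of_not_dvd hcon'
          omega
        exact (Nat.le_of_dvd (by omega) h7).trans g3
      by_cases hs : Spl g r p
      · rw [kc_spl hpN hs] at h6
        omega
      · exact h4 ⟨hs, by omega⟩
    · exact h5 ⟨h1, h2, hcon, h6.1⟩
  · intro h6
    rcases H.hlt r hr p hp h1 hpx h2 h6 with h7 | h7
    · omega
    · exact ⟨h1, h2, h7.1⟩

open Classical in
/-- the sum at a node -/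
theorem X1H.node (h1 : 0 ≤ c1) (hc : 0 ≤ c) {lam s : ℝ} (hlam : 0 ≤ lam) (hs : s ≤ 1 / 4)
    {r p : ℕ} (hr : r ∈ S) (hp : p ∈ (prN (N g)).filter (fun p => t0 < p ∧ p ≤ x)) {T : Finset ℕ}
    (hT : T ⊆ S) (hlab : ∀ r' ∈ T, ∀ p' ∈ (prN (N g)).filter (fun p => t0 < p ∧ p ≤ x), p < p' →
      flb g t B q p' r' = flb g t B q p' r) (hinj : Set.InjOn (flb g t B q p) T) :
    ∑ r' ∈ T, phw g c1 c lam s t B q p (flb g t B q p r') ≤
      1 + (xad g c1 c lam s t B q p + xof g t B q r p) := by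
  obtain ⟨hp1, hp2, hp3⟩ := mem_filter.1 hp
  have hpp := prN_prime hp1
  have hpN : p ≤ N g := (mem_Icc.1 (mem_filter.1 hp1).1).2
  have e1 : ∑ r' ∈ T, phw g c1 c lam s t B q p (flb g t B q p r') =
      ∑ e ∈ T.image (flb g t B q p), phw g c1 c lam s t B q p e := (sum_image hinj).symm
  rw [e1]
  set E := T.image (flb g t B q p) with hE
  have hadd := adr_sum (g := g) (t := t) (B := B) (q := q) h1 hc hlam hs hpp.two_le E
  by_cases hF : Flg g t B q r p
  · have hb := Db.branch_sum hpp.two_le (q.factorization p) E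
    have h2 : xof g t B q r p = 8 * (p : ℝ) ^ (-(5 / 12 : ℝ)) := by
      unfold xof
      rw [if_pos hF]
    rw [h2]
    have h3 : ∑ e ∈ E, phw g c1 c lam s t B q p e ≤ ∑ e ∈ E,
        (((p ^ ((e - q.factorization p) + (q.factorization p - e)) : ℕ) : ℝ) ^ (-(5 / 12 : ℝ)) +
        (if e < q.factorization p ∧ Adr g t B q p then
        lam * dd g c1 c q p * ((p ^ (q.factorization p - e) : ℕ) : ℝ) ^ (-(1 - s)) else 0)) :=
      sum_le_sum fun e _ => phw_le_lab e
    rw [sum_add_distrib] at h3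
    linarith
  · have hle : ∀ e ∈ E, e ≤ q.factorization p ∧ (e < q.factorization p → Adr g t B q p) := by
      intro e he
      obtain ⟨r', hr', rfl⟩ := mem_image.1 he
      have hcell := H.cell hr (hT hr') hp2.le (hlab r' hr')
      refine H.unfl (hT hr') hpp hp3 fun h2 => hF ?_
      unfold Flg at h2 ⊢
      rwa [OfC_congr hpN hcell] at h2
    have h3 : ∑ e ∈ E, phw g c1 c lam s t B q p e ≤ ∑ e ∈ E,
        ((if e = q.factorization p then (1 : ℝ) else 0) +
        (if e < q.factorization p ∧ Adr g t B q p then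
        lam * dd g c1 c q p * ((p ^ (q.factorization p - e) : ℕ) : ℝ) ^ (-(1 - s)) else 0)) := by
      refine sum_le_sum fun e he => ?_
      obtain ⟨h4, h5⟩ := hle e he
      rcases h4.eq_or_lt with h6 | h6
      · have hn : ¬ (e < q.factorization p ∧ Adr g t B q p) := fun h => by
          have := h.1
          omega
        unfold phw
        rw [if_neg hn, if_neg hn, if_pos h6, h6]
        simp
      · have hy : e < q.factorization p ∧ Adr g t B q p := ⟨h6, h5 h6⟩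
        have hne : ¬ e = q.factorization p := by omega
        unfold phw
        rw [if_pos hy, if_pos hy, if_neg hne, zero_add]
    rw [sum_add_distrib] at h3
    have h4 : ∑ e ∈ E, (if e = q.factorization p then (1 : ℝ) else 0) ≤ 1 := by
      rw [sum_ite_eq']
      split_ifs <;> norm_num
    have h5 := xof_nonneg (g := g) (t := t) (B := B) (q := q) r p
    linarith

open Classical in
/-- the removers over a fibre -/
theorem X1H.fibre (h1 : 0 < c1) (hz : 2 ≤ c1 * zs g) (hc : 0 ≤ c) {lam : ℝ} (hlam : 0 ≤ lam)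
    (hlc : lam * c ≤ 1 / 2) (hxN : N g - x ≤ N g) {Y : Finset ℕ} (hY : Y ⊆ S)
    (hlab : ∀ r ∈ Y, ∀ r' ∈ Y, ∀ p ∈ (prN (N g)).filter (fun p => t0 < p ∧ p ≤ x),
      flb g t B q p r' = flb g t B q p r) :
    ∑ r ∈ Y, ∏ p ∈ ((prN (N g)).filter (fun p => t0 < p ∧ p ≤ x)).filter (Rmv g t B q r),
      (lam * dd g c1 c r p) ≤ 2 := by
  have hP : ∀ p : ℕ, p.Prime → p ≤ N g → t0 < p → p ≤ x →
      p ∈ (prN (N g)).filter (fun p => t0 < p ∧ p ≤ x) := fun p hp h2 h3 h4 =>
    mem_filter.2 ⟨mem_filter.2 ⟨mem_Icc.2 ⟨hp.pos, h2⟩, hp⟩, h3, h4⟩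
  have key := rem_sum (g := g) (Y := Y) h1 hz hc hlam (by linarith)
    (fun r hr => (H.V (hY hr)).1) H.zt (m := N g - x) (fun r hr => H.hph r (hY hr))
    (fun r => ((prN (N g)).filter (fun p => t0 < p ∧ p ≤ x)).filter (Rmv g t B q r)) ?_ ?_ ?_ ?_
  · refine key.trans ?_
    rw [div_le_iff₀ (by linarith)]
    linarith
  · intro r _ p hp
    obtain ⟨h2, h3⟩ := mem_filter.1 hp
    obtain ⟨h4, h5, h6⟩ := mem_filter.1 h2
    exact ⟨(mem_Icc.1 (mem_filter.1 h4).1).2, h3.1, by omega, h3.2.2.2⟩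
  · intro r hr r' hr' p hp h2 h3 h4 h5
    by_cases h6 : p ≤ x
    · have h7 := hP p hp h3 (lt_of_le_of_lt H.t0t h2) h6
      have h8 := hlab r hr r' hr' p h7
      have h9 : ¬ Rmv g t B q r p := fun h => h4 (mem_filter.2 ⟨h7, h⟩)
      have h10 : ¬ Rmv g t B q r' p := fun h => h5 (mem_filter.2 ⟨h7, h⟩)
      unfold flb at h8
      rw [if_neg h9, if_neg h10] at h8
      exact h8.symm
    · exact H.hout r (hY hr) r' (hY hr') p hp (by omega)
  · intro r hr r' hr' p h2 h3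
    obtain ⟨h4, h5⟩ := mem_filter.1 h2
    have h6 : ¬ Rmv g t B q r' p := fun h => h3 (mem_filter.2 ⟨h4, h⟩)
    have h8 := hlab r hr r' hr' p h4
    unfold flb at h8
    rw [if_pos h5, if_neg h6] at h8
    have := h5.2.2.1
    omega
  · intro r hr r' hr' h2
    refine H.hinj r (hY hr) r' (hY hr') fun p hp h3 => ?_
    by_cases h4 : p ≤ N g
    · by_cases h5 : t < p
      · exact h2 p hp h5 h4
      · by_cases h6 : p ≤ x
        · have h8 := hlab r hr r' hr' p (hP p hp h4 h3 h6)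
          unfold flb at h8
          rw [if_neg fun h => h5 h.1, if_neg fun h => h5 h.1] at h8
          exact h8.symm
        · exact H.hout r (hY hr) r' (hY hr') p hp (by omega)
    · have h5 : ∀ r ∈ S, r.factorization p = 0 := by
        intro r hr
        obtain ⟨-, g2, g3⟩ := H.V hr
        apply Nat.factorization_eq_zero_of_not_dvd
        intro h6
        have := Nat.le_of_dvd (by omega) h6
        omega
      rw [h5 r (hY hr), h5 r' (hY hr')]


omit H in
/-- the deviations of a modulus of `V1` -/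
theorem dev_sum_le (P : Finset ℕ) {r : ℕ} (hr : r ∈ V1 g) (hP : ∀ p ∈ P, p.Prime ∧ zs g < p ∧
    p ≤ N g ∧ r.factorization p < kc g r p) :
    ∑ p ∈ P, 8 * (p : ℝ) ^ (-(5 / 12 : ℝ)) ≤ 2 := by
  have h1 : WW w3 g r ≤ 1 / 4 := (mem_filter.1 hr).2
  have h2 : ∑ p ∈ P, (p : ℝ) ^ (-(5 / 12 : ℝ)) ≤ WW w3 g r := by
    unfold WW
    have h3 : ∑ p ∈ P, (p : ℝ) ^ (-(5 / 12 : ℝ)) ≤ ∑ p ∈ P, w3 p := by
      refine sum_le_sum fun p hp => ?_
      have h4 : (1 : ℝ) ≤ p := by exact_mod_cast (hP p hp).1.one_le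
      exact Real.rpow_le_rpow_of_exponent_le h4 (by norm_num)
    refine h3.trans (sum_le_sum_of_subset_of_nonneg (fun p hp => ?_) fun p _ _ => w3_nonneg p)
    obtain ⟨h4, h5, h6, h7⟩ := hP p hp
    refine mem_filter.2 ⟨NT.mem_PzN.2 ⟨h4, h5, h6⟩, ?_⟩
    rw [kc_le h6] at h7
    omega
  rw [← mul_sum]
  linarith

open Classical in
/-- the payment of the off-centre nodes -/
theorem X1H.pay_of (hB : 0 < B) {r : ℕ} (hr : r ∈ S) :
    ∏ p ∈ (prN (N g)).filter (fun p => t0 < p ∧ p ≤ x), (1 + xof g t B q r p) ≤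
      (∏ p ∈ ((prN (N g)).filter (fun p => t0 < p ∧ p ≤ x)).filter (Rmv g t B q r), (9 : ℝ)) *
      Real.exp (4 + 8 * ∑ p ∈ (prN (N g)).filter (fun p => t0 < p ∧ p ≤ t),
        (p : ℝ) ^ (-(5 / 12 : ℝ)) + 8 * ∑ p ∈ B.primeFactors.filter (fun p => t < p),
        (p : ℝ) ^ (-(5 / 12 : ℝ))) := by
  set P := (prN (N g)).filter (fun p => t0 < p ∧ p ≤ x) with hPdef
  have hPm : ∀ p ∈ P, p.Prime ∧ p ≤ N g ∧ t0 < p ∧ p ≤ x := by
    intro p hp
    obtain ⟨h1, h2, h3⟩ := mem_filter.1 hp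
    exact ⟨prN_prime h1, (mem_Icc.1 (mem_filter.1 h1).1).2, h2, h3⟩
  have h5 : ∀ p ∈ P, (p : ℝ) ^ (-(5 / 12 : ℝ)) ≤ 1 := fun p hp =>
    Real.rpow_le_one_of_one_le_of_nonpos (by exact_mod_cast (hPm p hp).1.one_le) (by norm_num)
  have h50 : ∀ p : ℕ, 0 ≤ 8 * (p : ℝ) ^ (-(5 / 12 : ℝ)) := fun p => by positivity
  have hxof0 : ∀ r p, 0 ≤ xof g t B q r p := fun r p => xof_nonneg r p
  rw [← prod_filter_mul_prod_filter_not P (Rmv g t B q r)]
  refine mul_le_mul (prod_le_prod (fun p _ => by linarith [hxof0 r p]) fun p hp => ?_) ?_ (prod_nonneg fun p _ => by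
      linarith [hxof0 r p])
      (prod_nonneg fun _ _ => by norm_num)
  · have h6 := h5 p (mem_filter.1 hp).1
    unfold xof
    split_ifs
    · linarith
    · linarith
  · set Q := P.filter (fun p => ¬ Rmv g t B q r p) with hQ
    have e1 : ∏ p ∈ Q, (1 + xof g t B q r p) ≤ Real.exp (∑ p ∈ Q, xof g t B q r p) := by
      rw [Real.exp_sum]
      refine prod_le_prod (fun p _ => by linarith [hxof0 r p]) fun p _ => ?_
      have := Real.add_one_le_exp (xof g t B q r p)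
      linarith
    refine e1.trans (Real.exp_le_exp.2 ?_)
    -- the four kinds of flagged places
    have e2 : ∑ p ∈ Q, xof g t B q r p ≤
        ∑ p ∈ P.filter (fun p => p ≤ t), 8 * (p : ℝ) ^ (-(5 / 12 : ℝ)) +
        ∑ p ∈ P.filter (fun p => t < p ∧ p ∣ B), 8 * (p : ℝ) ^ (-(5 / 12 : ℝ)) +
        ∑ p ∈ P.filter (fun p => t < p ∧ q.factorization p < kc g q p),
          8 * (p : ℝ) ^ (-(5 / 12 : ℝ)) +
        ∑ p ∈ P.filter (fun p => t < p ∧ r.factorization p < kc g r p),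
          8 * (p : ℝ) ^ (-(5 / 12 : ℝ)) := by
      have f1 : ∀ (R : ℕ → Prop) [DecidablePred R] (φ : ℕ → ℝ), ∑ p ∈ P.filter R, φ p =
        ∑ p ∈ P, if R p then φ p else 0 := fun R _ φ => sum_filter R φ
      rw [hQ, f1, f1, f1, f1, f1, ← sum_add_distrib, ← sum_add_distrib, ← sum_add_distrib]
      refine sum_le_sum fun p hp => ?_
      obtain ⟨p1, p2, p3, p4⟩ := hPm p hp
      have h8 := h50 p
      by_cases hR : Rmv g t B q r p
      · rw [if_neg (not_not.2 hR)]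
        split_ifs <;> linarith
      rw [if_pos hR]
      unfold xof
      split_ifs with hF <;> first | linarith | skip
      all_goals exfalso
      rename_i g1 g2 g3 g4
      rcases hF with h | h | h | h
      · exact g1 h
      · exact g2 ⟨by omega, h⟩
      · exact g3 ⟨by omega, h⟩
      · have ht : t < p := by omega
        have hB' : ¬ p ∣ B := fun h' => g2 ⟨ht, h'⟩
        apply g4
        refine ⟨ht, ?_⟩
        by_contra hcon
        rcases Nat.lt_or_ge (q.factorization p) (r.factorization p) with h9 | h9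
        · rcases H.hgt r hr p p1 ht p4 hB' h9 with h10 | h10
          · exact hcon h10
          · exact hR ⟨ht, hB', h9, h10.1⟩
        · have := h.2
          omega
    have e3 : ∑ p ∈ P.filter (fun p => p ≤ t), 8 * (p : ℝ) ^ (-(5 / 12 : ℝ)) ≤
        8 * ∑ p ∈ (prN (N g)).filter (fun p => t0 < p ∧ p ≤ t), (p : ℝ) ^ (-(5 / 12 : ℝ)) := by
      rw [mul_sum]
      refine sum_le_sum_of_subset_of_nonneg (fun p hp => ?_) fun p _ _ => h50 p
      obtain ⟨h6, h7⟩ := mem_filter.1 hp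
      obtain ⟨h8, h9, -⟩ := mem_filter.1 h6
      exact mem_filter.2 ⟨h8, h9, h7⟩
    have e4 : ∑ p ∈ P.filter (fun p => t < p ∧ p ∣ B), 8 * (p : ℝ) ^ (-(5 / 12 : ℝ)) ≤
        8 * ∑ p ∈ B.primeFactors.filter (fun p => t < p), (p : ℝ) ^ (-(5 / 12 : ℝ)) := by
      rw [mul_sum]
      refine sum_le_sum_of_subset_of_nonneg (fun p hp => ?_) fun p _ _ => h50 p
      obtain ⟨h6, h7, h8⟩ := mem_filter.1 hp
      exact mem_filter.2 ⟨Nat.mem_primeFactors.2 ⟨(hPm p h6).1, h8, hB.ne'⟩, h7⟩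
    have e5 : ∑ p ∈ P.filter (fun p => t < p ∧ q.factorization p < kc g q p),
        8 * (p : ℝ) ^ (-(5 / 12 : ℝ)) ≤ 2 := by
      refine dev_sum_le _ H.hq fun p hp => ?_
      obtain ⟨h6, h7, h8⟩ := mem_filter.1 hp
      exact ⟨(hPm p h6).1, lt_of_le_of_lt H.zt h7, (hPm p h6).2.1, h8⟩
    have e6 : ∑ p ∈ P.filter (fun p => t < p ∧ r.factorization p < kc g r p),
        8 * (p : ℝ) ^ (-(5 / 12 : ℝ)) ≤ 2 := by
      refine dev_sum_le _ (H.hS hr) fun p hp => ?_
      obtain ⟨h6, h7, h8⟩ := mem_filter.1 hp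
      exact ⟨(hPm p h6).1, lt_of_le_of_lt H.zt h7, (hPm p h6).2.1, h8⟩
    linarith

open Classical in
/-- the payment of the adders -/
theorem X1H.pay_ad (h1 : 0 < c1) (hc1 : c1 ≤ 1) (hc : 0 ≤ c) {lam s : ℝ} (hlam : 0 ≤ lam)
    (hlc : lam * c ≤ 1 / 500) (hs0 : 0 ≤ s) (hxs : (x : ℝ) ^ s ≤ Real.exp 8) :
    ∏ p ∈ (prN (N g)).filter (fun p => t0 < p ∧ p ≤ x), (1 + xad g c1 c lam s t B q p) ≤
      Real.exp 9 := by
  set P := (prN (N g)).filter (fun p => t0 < p ∧ p ≤ x) with hPdef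
  have hPm : ∀ p ∈ P, p.Prime ∧ p ≤ N g ∧ t0 < p ∧ p ≤ x := by
    intro p hp
    obtain ⟨h1, h2, h3⟩ := mem_filter.1 hp
    exact ⟨prN_prime h1, (mem_Icc.1 (mem_filter.1 h1).1).2, h2, h3⟩
  have hxad0 : ∀ p, 0 ≤ xad g c1 c lam s t B q p := fun p => xad_nonneg h1.le hc hlam p
  have e1 : ∏ p ∈ P, (1 + xad g c1 c lam s t B q p) ≤
      Real.exp (∑ p ∈ P, xad g c1 c lam s t B q p) := by
    rw [Real.exp_sum]
    refine prod_le_prod (fun p _ => by linarith [hxad0 p]) fun p _ => ?_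
    have := Real.add_one_le_exp (xad g c1 c lam s t B q p)
    linarith
  refine e1.trans (Real.exp_le_exp.2 ?_)
  obtain ⟨a, ha, ha1, ha2⟩ := H.hphq
  set U := P.filter (fun p => Adr g t B q p ∧ dd g c1 c q p ≠ 0) with hU
  have h2 := sum_dd_phase h1 hc ha (U := U) (by
    intro p hp
    obtain ⟨h3, h4, h5⟩ := mem_filter.1 hp
    obtain ⟨h6, h7, h8, h9⟩ := hPm p h3
    have h10 := h4.1
    exact ⟨h7, h6.pos, by omega, by omega, h5⟩)
  have h3 : ∑ p ∈ P, xad g c1 c lam s t B q p ≤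
      ∑ p ∈ U, 3 * lam * Real.exp 8 * (dd g c1 c q p / p) := by
    have f1 : ∀ (R : ℕ → Prop) [DecidablePred R] (φ : ℕ → ℝ), ∑ p ∈ P.filter R, φ p =
        ∑ p ∈ P, if R p then φ p else 0 := fun R _ φ => sum_filter R φ
    rw [hU, f1]
    refine sum_le_sum fun p hp => ?_
    obtain ⟨h6, h7, h8, h9⟩ := hPm p hp
    have hp0 : (0 : ℝ) < p := by exact_mod_cast h6.pos
    unfold xad
    by_cases hA : Adr g t B q p
    · rw [if_pos hA]
      by_cases hd : dd g c1 c q p ≠ 0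
      · rw [if_pos ⟨hA, hd⟩]
        have hd0 := dd_nonneg (g := g) h1.le hc q p
        have h10 : (p : ℝ) ^ (-(1 - s)) = (p : ℝ) ^ s / p := by
          rw [show -(1 - s) = s - 1 by ring, Real.rpow_sub_one hp0.ne']
        have h11 : (p : ℝ) ^ s ≤ Real.exp 8 :=
          (Real.rpow_le_rpow hp0.le (by exact_mod_cast h9) hs0).trans hxs
        rw [h10]
        calc 3 * (lam * dd g c1 c q p * ((p : ℝ) ^ s / p))
            = 3 * lam * (p : ℝ) ^ s * (dd g c1 c q p / p) := by ring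
          _ ≤ 3 * lam * Real.exp 8 * (dd g c1 c q p / p) := by
            refine mul_le_mul_of_nonneg_right ?_ (by positivity)
            exact mul_le_mul_of_nonneg_left h11 (by positivity)
      · rw [if_neg fun h => hd h.2]
        push Not at hd
        rw [hd]
        simp
    · rw [if_neg hA, if_neg fun h => hA h.1]
  rw [← mul_sum] at h3
  have h4 : Real.exp 8 ≤ 2981 := by
    have h5 : Real.exp 8 = Real.exp 1 ^ 8 := by
      rw [← Real.exp_nat_mul]
      norm_num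
    rw [h5]
    calc Real.exp 1 ^ 8 ≤ 2.7182818286 ^ 8 :=
          pow_le_pow_left₀ (Real.exp_pos _).le Real.exp_one_lt_d9.le 8
      _ ≤ 2981 := by norm_num
  have h0 : 0 ≤ Real.exp 8 := (Real.exp_pos _).le
  calc ∑ p ∈ P, xad g c1 c lam s t B q p
      ≤ 3 * lam * Real.exp 8 * ∑ p ∈ U, dd g c1 c q p / p := h3
    _ ≤ 3 * lam * Real.exp 8 * (c * c1 / 2) :=
        mul_le_mul_of_nonneg_left h2 (by positivity)
    _ = 3 / 2 * Real.exp 8 * (lam * c) * c1 := by ring
    _ ≤ 3 / 2 * Real.exp 8 * (lam * c) * 1 := mul_le_mul_of_nonneg_left hc1 (by positivity)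
    _ ≤ 3 / 2 * 2981 * (1 / 500) := by
        rw [mul_one]
        refine mul_le_mul (by linarith) hlc (by positivity) (by norm_num)
    _ ≤ 9 := by norm_num

open Classical in
/-- **The row, general form** -/
theorem X1H.row (h1 : 0 < c1) (hc1 : c1 ≤ 1) (hz : 2 ≤ c1 * zs g) (hc : 0 ≤ c) {lam s : ℝ}
    (hlam : 0 ≤ lam) (hlc : lam * c ≤ 1 / 500) (hs0 : 0 ≤ s) (hs : s ≤ 1 / 4)
    (hxs : (x : ℝ) ^ s ≤ Real.exp 8) (hB : 0 < B) :
    ∑ r ∈ S, ∏ p ∈ (prN (N g)).filter (fun p => t0 < p ∧ p ≤ x), w1 g c1 c lam s t B q r p ≤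
      2 * Real.exp (13 + 8 * ∑ p ∈ (prN (N g)).filter (fun p => t0 < p ∧ p ≤ t),
        (p : ℝ) ^ (-(5 / 12 : ℝ)) + 8 * ∑ p ∈ B.primeFactors.filter (fun p => t < p),
        (p : ℝ) ^ (-(5 / 12 : ℝ))) := by
  set P := (prN (N g)).filter (fun p => t0 < p ∧ p ≤ x) with hPdef
  set Ex : ℝ := 4 + 8 * ∑ p ∈ (prN (N g)).filter (fun p => t0 < p ∧ p ≤ t),
        (p : ℝ) ^ (-(5 / 12 : ℝ)) + 8 * ∑ p ∈ B.primeFactors.filter (fun p => t < p),
        (p : ℝ) ^ (-(5 / 12 : ℝ)) with hEx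
  set w : ℕ → ℕ → ℝ := fun p r => phw g c1 c lam s t B q p (flb g t B q p r) with hw
  set X : ℕ → ℕ → ℝ := fun p r => xad g c1 c lam s t B q p + xof g t B q r p with hX
  set h : ℕ → ℝ := fun r => ∏ p ∈ P.filter (Rmv g t B q r), (9 * lam * dd g c1 c r p) with hh
  have hPm : ∀ p ∈ P, p.Prime ∧ p ≤ N g ∧ t0 < p ∧ p ≤ x := by
    intro p hp
    obtain ⟨h1, h2, h3⟩ := mem_filter.1 hp
    exact ⟨prN_prime h1, (mem_Icc.1 (mem_filter.1 h1).1).2, h2, h3⟩
  have hxof0 : ∀ r p, 0 ≤ xof g t B q r p := fun r p => xof_nonneg r p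
  have hX0 : ∀ p r, 0 ≤ X p r := fun p r =>
    add_nonneg (xad_nonneg h1.le hc hlam p) (xof_nonneg r p)
  have hw0 : ∀ p r, 0 ≤ w p r := fun p r => phw_nonneg h1.le hc hlam _ _
  have hd0 : ∀ r p, 0 ≤ dd g c1 c r p := fun r p => dd_nonneg h1.le hc r p
  have hh0 : ∀ r, 0 ≤ h r := fun r => prod_nonneg fun p _ => by
    have := hd0 r p
    positivity
  have htree := Db.tree_fib (e := flb g t B q) (w := w) (X := X) (h := h) (K := 2) (by norm_num)
    P S (fun r _ => hh0 r) (fun p _ r _ => hw0 p r) (fun p _ r _ => hX0 p r)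
    (fun p hp r hr r' hr' hlab => ?_) (fun p _ r _ r' _ _ he => ?_)
    (fun p hp r hr T hT hlab hinj => ?_) (fun r hr => ?_)
  · -- the conclusion
    have hpay : ∀ r ∈ S, ∏ p ∈ P, (1 + xof g t B q r p) ≤
        (∏ p ∈ P.filter (Rmv g t B q r), (9 : ℝ)) * Real.exp Ex := fun r hr => H.pay_of hB hr
    clear_value Ex
    have hmain : ∀ r ∈ S, ∏ p ∈ P, w1 g c1 c lam s t B q r p ≤
        Real.exp 9 * Real.exp Ex * (h r * ∏ p ∈ P, (w p r / (1 + X p r))) := by
      intro r hr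
      have e1 : ∏ p ∈ P, w1 g c1 c lam s t B q r p =
          (∏ p ∈ P.filter (Rmv g t B q r), (lam * dd g c1 c r p)) * ∏ p ∈ P, w p r := by
        rw [← prod_filter_mul_prod_filter_not P (Rmv g t B q r) (fun p => w1 g c1 c lam s t B q r p),
          ← prod_filter_mul_prod_filter_not P (Rmv g t B q r) (fun p => w p r)]
        have e2 : ∏ p ∈ P.filter (Rmv g t B q r), w p r = 1 :=
          prod_eq_one fun p hp => phw_Rmv (mem_filter.1 hp).2
        have e3 : ∏ p ∈ P.filter (Rmv g t B q r), w1 g c1 c lam s t B q r p =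
            ∏ p ∈ P.filter (Rmv g t B q r), (lam * dd g c1 c r p) :=
          prod_congr rfl fun p hp => w1_of_Rmv (mem_filter.1 hp).2
        have e4 : ∏ p ∈ P.filter (fun p => ¬ Rmv g t B q r p), w1 g c1 c lam s t B q r p =
            ∏ p ∈ P.filter (fun p => ¬ Rmv g t B q r p), w p r :=
          prod_congr rfl fun p hp => w1_of_not_Rmv (mem_filter.1 hp).2
        rw [e2, e3, e4, one_mul]
      have e5 : ∏ p ∈ P, w p r = (∏ p ∈ P, (w p r / (1 + X p r))) * ∏ p ∈ P, (1 + X p r) := by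
        rw [← prod_mul_distrib]
        refine prod_congr rfl fun p _ => ?_
        have := hX0 p r
        field_simp
      have e6 : ∏ p ∈ P, (1 + X p r) ≤ Real.exp 9 *
          ((∏ p ∈ P.filter (Rmv g t B q r), (9 : ℝ)) * Real.exp Ex) := by
        have e7 : ∏ p ∈ P, (1 + X p r) ≤ ∏ p ∈ P, ((1 + xad g c1 c lam s t B q p) *
            (1 + xof g t B q r p)) := by
          refine prod_le_prod (fun p _ => by linarith [hX0 p r]) fun p _ => ?_
          simp only [hX]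
          have h5 := xad_nonneg (g := g) (t := t) (B := B) (q := q) (s := s) h1.le hc hlam p
          have h6 := xof_nonneg (g := g) (t := t) (B := B) (q := q) r p
          nlinarith [mul_nonneg h5 h6]
        rw [prod_mul_distrib] at e7
        refine e7.trans (mul_le_mul (H.pay_ad h1 hc1 hc hlam hlc hs0 hxs) (hpay r hr)
          (prod_nonneg fun p _ => by linarith [hxof0 r p]) (Real.exp_pos _).le)
      have e8 : h r = (∏ p ∈ P.filter (Rmv g t B q r), (9 : ℝ)) *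
          ∏ p ∈ P.filter (Rmv g t B q r), (lam * dd g c1 c r p) := by
        simp only [hh]
        rw [← prod_mul_distrib]
        exact prod_congr rfl fun p _ => by ring
      have h7 : 0 ≤ ∏ p ∈ P, (w p r / (1 + X p r)) := prod_nonneg fun p _ =>
        div_nonneg (hw0 p r) (by linarith [hX0 p r])
      have h8 : 0 ≤ ∏ p ∈ P.filter (Rmv g t B q r), (lam * dd g c1 c r p) :=
        prod_nonneg fun p _ => mul_nonneg hlam (hd0 r p)
      rw [e1, e5, e8]
      calc (∏ p ∈ P.filter (Rmv g t B q r), (lam * dd g c1 c r p)) *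
            ((∏ p ∈ P, (w p r / (1 + X p r))) * ∏ p ∈ P, (1 + X p r))
          ≤ (∏ p ∈ P.filter (Rmv g t B q r), (lam * dd g c1 c r p)) *
            ((∏ p ∈ P, (w p r / (1 + X p r))) * (Real.exp 9 *
          ((∏ p ∈ P.filter (Rmv g t B q r), (9 : ℝ)) * Real.exp Ex))) :=
            mul_le_mul_of_nonneg_left (mul_le_mul_of_nonneg_left e6 h7) h8
        _ = _ := by ring
    refine (sum_le_sum hmain).trans ?_
    rw [← mul_sum]
    calc Real.exp 9 * Real.exp Ex * ∑ r ∈ S, h r * ∏ p ∈ P, (w p r / (1 + X p r))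
        ≤ Real.exp 9 * Real.exp Ex * 2 := mul_le_mul_of_nonneg_left htree (by positivity)
      _ = 2 * Real.exp (9 + Ex) := by
          rw [Real.exp_add]
          ring
      _ = _ := by
          congr 2
          rw [hEx]
          ring
  · -- X is a function of the labels above
    simp only [hX]
    congr 1
    have hcell := H.cell hr hr' (hPm p hp).2.2.1.le fun p' hp' hlt => (hlab p' hp' hlt).symm
    have h5 := OfC_congr (q := q) (hPm p hp).2.1 hcell
    have h6 : Flg g t B q r' p ↔ Flg g t B q r p := by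
      unfold Flg
      rw [h5]
    unfold xof
    by_cases h7 : Flg g t B q r p
    · rw [if_pos h7, if_pos (h6.2 h7)]
    · rw [if_neg h7, if_neg fun h => h7 (h6.1 h)]
  · simp only [hw]
    rw [he]
  · exact H.node h1.le hc hlam hs hr hp hT hlab hinj
  · have h5 := H.fibre (lam := 9 * lam) h1 hz hc (by positivity) (by linarith) (Nat.sub_le _ _)
      (Y := S.filter (fun r' => ∀ p ∈ P, flb g t B q p r' = flb g t B q p r))
      (filter_subset _ _) (fun r1 hr1 r2 hr2 p hp => by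
        rw [(mem_filter.1 hr1).2 p hp, (mem_filter.1 hr2).2 p hp])
    exact h5


/-- **The row, with the free primes** -/
theorem X1H.row_free (h1 : 0 < c1) (hc1 : c1 ≤ 1) (hz : 2 ≤ c1 * zs g) (hc : 0 ≤ c) {lam s : ℝ}
    (hlam : 0 ≤ lam) (hlc : lam * c ≤ 1 / 500) (hs0 : 0 ≤ s) (hs : s ≤ 1 / 4)
    (hxs : (x : ℝ) ^ s ≤ Real.exp 8) (hB : 0 < B) :
    ∑ r ∈ S, ∏ p ∈ (prN (N g)).filter (fun p => t0 < p ∧ p ≤ x), w1 g c1 c lam s t B q r p ≤
      2 * Real.exp (13 + 16 * (t : ℝ) ^ (7 / 12 : ℝ) + 32 * (Real.log B) ^ (7 / 12 : ℝ)) := by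
  refine (H.row h1 hc1 hz hc hlam hlc hs0 hs hxs hB).trans ?_
  refine mul_le_mul_of_nonneg_left (Real.exp_le_exp.2 ?_) (by norm_num)
  have h0 : ∀ p : ℕ, 0 ≤ (p : ℝ) ^ (-(5 / 12) : ℝ) := fun p => by positivity
  have e1 : ∑ p ∈ (prN (N g)).filter (fun p => t0 < p ∧ p ≤ t), (p : ℝ) ^ (-(5 / 12 : ℝ)) ≤
      2 * (t : ℝ) ^ (7 / 12 : ℝ) := by
    have h2 := sum_Icc_rpow_le (s := 5 / 12) (by norm_num) (by norm_num) t
    rw [show (1 : ℝ) - 5 / 12 = 7 / 12 by norm_num] at h2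
    refine le_trans (sum_le_sum_of_subset_of_nonneg (fun p hp => ?_) fun p _ _ => h0 p) h2
    obtain ⟨h3, h4, h5⟩ := mem_filter.1 hp
    exact mem_Icc.2 ⟨by omega, h5⟩
  have e2 : ∑ p ∈ B.primeFactors.filter (fun p => t < p), (p : ℝ) ^ (-(5 / 12 : ℝ)) ≤
      4 * (Real.log B) ^ (7 / 12 : ℝ) :=
    (sum_le_sum_of_subset_of_nonneg (filter_subset _ _) fun p _ _ => h0 p).trans
      (sum_primeFactors_le hB)
  linarith

omit H in
/-- **The row, no free primes** (`t0 = t`) -/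
theorem X1H.row_core (H : X1H g c1 c t t x B q S) (h1 : 0 < c1) (hc1 : c1 ≤ 1)
    (hz : 2 ≤ c1 * zs g) (hc : 0 ≤ c) {lam s : ℝ}
    (hlam : 0 ≤ lam) (hlc : lam * c ≤ 1 / 500) (hs0 : 0 ≤ s) (hs : s ≤ 1 / 4)
    (hxs : (x : ℝ) ^ s ≤ Real.exp 8) (hB : 0 < B) :
    ∑ r ∈ S, ∏ p ∈ (prN (N g)).filter (fun p => t < p ∧ p ≤ x), w1 g c1 c lam s t B q r p ≤
      2 * Real.exp (13 + 8 * ∑ p ∈ B.primeFactors.filter (fun p => t < p),
        (p : ℝ) ^ (-(5 / 12 : ℝ))) := by
  refine (H.row h1 hc1 hz hc hlam hlc hs0 hs hxs hB).trans ?_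
  refine mul_le_mul_of_nonneg_left (Real.exp_le_exp.2 ?_) (by norm_num)
  have e1 : (prN (N g)).filter (fun p => t < p ∧ p ≤ t) = ∅ :=
    filter_eq_empty_iff.2 fun p _ h => by omega
  rw [e1, sum_empty]
  linarith

end X1

end Vale.P028.SK.X1B
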